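import Mathlib

/-!
P092, TEAM D, block [D-KAK] (helper464).
Finitely additive projection valued measures on the measurable sets of a space, commuting
incident pairs, and the two almost orthogonality estimates for families of bounded multiplicity.
-/

namespace Vale.Agent.P092.H464

open scoped InnerProductSpace
open MeasureTheory

variable {K : Type*} [NormedAddCommGroup K] [InnerProductSpace ℂ K] [CompleteSpace K]

/-- `P` is a finitely additive projection valued measure on the measurable sets of `X`. -/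
structure Pv {X : Type*} [MeasurableSpace X] (P : Set X → (K →L[ℂ] K)) : Prop where
  sa : ∀ A, MeasurableSet A → star (P A) = P A
  inter : ∀ A B, MeasurableSet A → MeasurableSet B → P (A ∩ B) = P A * P B
  compl : ∀ A, MeasurableSet A → P Aᶜ = 1 - P A

/-- `P` (on `X`) and `L` (on `Y`) commute and are carried by the relation `I`. -/
structure CI {X Y : Type*} [MeasurableSpace X] [MeasurableSpace Y] (I : X → Y → Prop)
    (P : Set X → (K →L[ℂ] K)) (L : Set Y → (K →L[ℂ] K)) : Prop where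
  comm : ∀ A N, MeasurableSet A → MeasurableSet N → P A * L N = L N * P A
  inc : ∀ A N, MeasurableSet A → MeasurableSet N → (∀ x ∈ A, ∀ ν ∈ N, ¬ I x ν) → P A * L N = 0

namespace Pv

variable {X : Type*} [MeasurableSpace X] {P : Set X → (K →L[ℂ] K)}

theorem idem (h : Pv P) {A : Set X} (hA : MeasurableSet A) : P A * P A = P A := by
  rw [← h.inter A A hA hA, Set.inter_self]

theorem comm (h : Pv P) {A B : Set X} (hA : MeasurableSet A) (hB : MeasurableSet B) :
    P A * P B = P B * P A := by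
  rw [← h.inter A B hA hB, ← h.inter B A hB hA, Set.inter_comm]

theorem empty (h : Pv P) : P ∅ = 0 := by
  have h1 := h.inter ∅ ∅ᶜ MeasurableSet.empty MeasurableSet.empty.compl
  rw [h.compl ∅ MeasurableSet.empty, Set.inter_compl_self, mul_sub, mul_one,
    h.idem MeasurableSet.empty, sub_self] at h1
  exact h1

theorem univ (h : Pv P) : P Set.univ = 1 := by
  rw [← Set.compl_empty, h.compl ∅ MeasurableSet.empty, h.empty, sub_zero]

theorem disj (h : Pv P) {A B : Set X} (hA : MeasurableSet A) (hB : MeasurableSet B)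
    (hd : Disjoint A B) : P A * P B = 0 := by
  rw [← h.inter A B hA hB, Set.disjoint_iff_inter_eq_empty.1 hd, h.empty]

theorem mul_of_subset (h : Pv P) {A B : Set X} (hA : MeasurableSet A) (hB : MeasurableSet B)
    (hAB : A ⊆ B) : P A * P B = P A := by
  rw [← h.inter A B hA hB, Set.inter_eq_self_of_subset_left hAB]

theorem mul_of_subset' (h : Pv P) {A B : Set X} (hA : MeasurableSet A) (hB : MeasurableSet B)
    (hAB : A ⊆ B) : P B * P A = P A := by
  rw [h.comm hB hA, h.mul_of_subset hA hB hAB]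

theorem diff (h : Pv P) {A B : Set X} (hA : MeasurableSet A) (hB : MeasurableSet B) :
    P (A \ B) = P A - P A * P B := by
  rw [Set.sdiff_eq, h.inter A Bᶜ hA hB.compl, h.compl B hB, mul_sub, mul_one]

theorem split (h : Pv P) {A D : Set X} (hA : MeasurableSet A) (hD : MeasurableSet D) :
    P D = P (D ∩ A) + P (D \ A) := by
  rw [h.diff hD hA, h.inter D A hD hA]; abel

theorem add (h : Pv P) {A B : Set X} (hA : MeasurableSet A) (hB : MeasurableSet B)
    (hd : Disjoint A B) : P (A ∪ B) = P A + P B := by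
  rw [h.split hA (hA.union hB)]
  congr 1
  · rw [Set.union_inter_cancel_left]
  · congr 1
    ext x
    constructor
    · rintro ⟨h1, h2⟩; exact h1.resolve_left h2
    · intro hx; exact ⟨Or.inr hx, fun h' => Set.disjoint_left.1 hd h' hx⟩

theorem sum (h : Pv P) {ι : Type*} (s : Finset ι) (A : ι → Set X)
    (hA : ∀ i ∈ s, MeasurableSet (A i))
    (hd : ∀ i ∈ s, ∀ j ∈ s, i ≠ j → Disjoint (A i) (A j)) :
    P (⋃ i ∈ s, A i) = ∑ i ∈ s, P (A i) := by
  classical
  induction s using Finset.induction_on with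
  | empty => simp [h.empty]
  | insert a s ha ih =>
    rw [Finset.set_biUnion_insert, Finset.sum_insert ha, h.add, ih]
    · exact fun i hi => hA i (Finset.mem_insert_of_mem hi)
    · exact fun i hi j hj => hd i (Finset.mem_insert_of_mem hi) j (Finset.mem_insert_of_mem hj)
    · exact hA a (Finset.mem_insert_self _ _)
    · exact Finset.measurableSet_biUnion s fun i hi => hA i (Finset.mem_insert_of_mem hi)
    · rw [Set.disjoint_iUnion₂_right]
      intro i hi
      exact hd a (Finset.mem_insert_self _ _) i (Finset.mem_insert_of_mem hi)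
        (fun e => ha (e ▸ hi))

/-! ### Norms -/

theorem inner_symm (h : Pv P) {A : Set X} (hA : MeasurableSet A) (ξ η : K) :
    ⟪P A ξ, η⟫_ℂ = ⟪ξ, P A η⟫_ℂ := by
  have e := ContinuousLinearMap.adjoint_inner_left (P A) η ξ
  rwa [show ContinuousLinearMap.adjoint (P A) = P A from h.sa A hA] at e

theorem inner_eq (h : Pv P) {A : Set X} (hA : MeasurableSet A) (ξ : K) :
    ⟪P A ξ, ξ⟫_ℂ = (‖P A ξ‖ : ℂ) ^ 2 := by
  have h1 : P A (P A ξ) = P A ξ := by
    have := congrArg (fun T : K →L[ℂ] K => T ξ) (h.idem hA)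
    simpa using this
  have h2 := h.inner_symm hA (P A ξ) ξ
  rw [h1] at h2
  rw [h2, inner_self_eq_norm_sq_to_K]
  norm_cast

theorem re_inner (h : Pv P) {A : Set X} (hA : MeasurableSet A) (ξ : K) :
    (⟪P A ξ, ξ⟫_ℂ).re = ‖P A ξ‖ ^ 2 := by
  rw [h.inner_eq hA]; norm_cast

/-- `‖P D ξ‖² = ‖P (D ∩ A) ξ‖² + ‖P (D \ A) ξ‖²` -/
theorem norm_split (h : Pv P) {A D : Set X} (hA : MeasurableSet A) (hD : MeasurableSet D) (ξ : K) :
    ‖P D ξ‖ ^ 2 = ‖P (D ∩ A) ξ‖ ^ 2 + ‖P (D \ A) ξ‖ ^ 2 := by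
  rw [← h.re_inner hD, ← h.re_inner (hD.inter hA), ← h.re_inner (hD.diff hA), h.split hA hD,
    add_apply, inner_add_left, Complex.add_re]

theorem norm_le_of_subset (h : Pv P) {A B : Set X} (hA : MeasurableSet A) (hB : MeasurableSet B)
    (hAB : A ⊆ B) (ξ : K) : ‖P A ξ‖ ≤ ‖P B ξ‖ := by
  have := h.norm_split hA hB ξ
  rw [Set.inter_eq_self_of_subset_right hAB] at this
  have h2 : ‖P A ξ‖ ^ 2 ≤ ‖P B ξ‖ ^ 2 := by rw [this]; nlinarith [sq_nonneg ‖P (B \ A) ξ‖]
  exact le_of_sq_le_sq h2 (norm_nonneg _)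

theorem norm_le (h : Pv P) {A : Set X} (hA : MeasurableSet A) (ξ : K) : ‖P A ξ‖ ≤ ‖ξ‖ := by
  simpa [h.univ] using h.norm_le_of_subset hA MeasurableSet.univ (Set.subset_univ A) ξ

theorem opNorm_le (h : Pv P) {A : Set X} (hA : MeasurableSet A) : ‖P A‖ ≤ 1 :=
  ContinuousLinearMap.opNorm_le_bound _ zero_le_one fun ξ => by
    rw [one_mul]; exact h.norm_le hA ξ

/-- localised form of `Pv.mult` -/
theorem mult_aux (h : Pv P) {ι : Type*} (s : Finset ι) (A : ι → Set X)
    (hA : ∀ i ∈ s, MeasurableSet (A i)) (ξ : K) :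
    ∀ (M : ℕ) (D : Set X), MeasurableSet D →
      (∀ x ∈ D, ∀ t ⊆ s, (∀ i ∈ t, x ∈ A i) → t.card ≤ M) →
      ∑ i ∈ s, ‖P (D ∩ A i) ξ‖ ^ 2 ≤ M * ‖P D ξ‖ ^ 2 := by
  classical
  induction s using Finset.induction_on with
  | empty => intro M D _ _; simp; positivity
  | insert a s ha ih =>
    intro M D hD hM
    have hAa : MeasurableSet (A a) := hA a (Finset.mem_insert_self _ _)
    have hAs : ∀ i ∈ s, MeasurableSet (A i) := fun i hi => hA i (Finset.mem_insert_of_mem hi)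
    rw [Finset.sum_insert ha]
    have key : ∑ i ∈ s, ‖P (D ∩ A i) ξ‖ ^ 2
        = ∑ i ∈ s, ‖P ((D ∩ A a) ∩ A i) ξ‖ ^ 2 + ∑ i ∈ s, ‖P ((D \ A a) ∩ A i) ξ‖ ^ 2 := by
      rw [← Finset.sum_add_distrib]
      refine Finset.sum_congr rfl fun i hi => ?_
      have e1 : D ∩ A i ∩ A a = D ∩ A a ∩ A i := by
        ext x; simp only [Set.mem_inter_iff]; tauto
      have e2 : (D ∩ A i) \ A a = (D \ A a) ∩ A i := by
        ext x; simp only [Set.mem_inter_iff, Set.mem_sdiff]; tauto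
      rw [h.norm_split hAa (hD.inter (hAs i hi)) ξ, e1, e2]
    rw [key, h.norm_split hAa hD ξ]
    have h2 := ih hAs M (D \ A a) (hD.diff hAa) (fun x hx t ht htx =>
      hM x hx.1 t (ht.trans (Finset.subset_insert _ _)) htx)
    by_cases hne : (D ∩ A a).Nonempty
    · obtain ⟨x0, hx0⟩ := hne
      have hM1 : 1 ≤ M := by
        have := hM x0 hx0.1 {a} (by simp) (by simpa using hx0.2)
        simpa using this
      obtain ⟨M', rfl⟩ : ∃ M', M = M' + 1 := ⟨M - 1, by omega⟩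
      have h1 := ih hAs M' (D ∩ A a) (hD.inter hAa) (fun x hx t ht htx => by
        have hat : a ∉ t := fun h' => ha (ht h')
        have := hM x hx.1 (insert a t) (Finset.insert_subset_insert _ ht) (by
          intro i hi
          rcases Finset.mem_insert.1 hi with rfl | hi
          · exact hx.2
          · exact htx i hi)
        rw [Finset.card_insert_of_notMem hat] at this
        omega)
      push_cast at h2 ⊢
      nlinarith [h1, h2]
    · rw [Set.not_nonempty_iff_eq_empty] at hne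
      rw [hne]
      simp only [Set.empty_inter, h.empty, zero_apply, norm_zero]
      simp only [ne_eq, OfNat.ofNat_ne_zero, not_false_eq_true, zero_pow, Finset.sum_const_zero,
        zero_add]
      exact h2

/-- almost orthogonality: a family of multiplicity at most `M` -/
theorem mult (h : Pv P) {ι : Type*} (s : Finset ι) (A : ι → Set X)
    (hA : ∀ i ∈ s, MeasurableSet (A i)) (M : ℕ)
    (hM : ∀ x, ∀ t ⊆ s, (∀ i ∈ t, x ∈ A i) → t.card ≤ M) (ξ : K) :
    ∑ i ∈ s, ‖P (A i) ξ‖ ^ 2 ≤ M * ‖ξ‖ ^ 2 := by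
  have := h.mult_aux s A hA ξ M Set.univ MeasurableSet.univ (fun x _ => hM x)
  simpa [Set.univ_inter, h.univ] using this

/-- the dual estimate -/
theorem mult' (h : Pv P) {ι : Type*} (s : Finset ι) (A : ι → Set X)
    (hA : ∀ i ∈ s, MeasurableSet (A i)) (M : ℕ)
    (hM : ∀ x, ∀ t ⊆ s, (∀ i ∈ t, x ∈ A i) → t.card ≤ M) (η : ι → K) :
    ‖∑ i ∈ s, P (A i) (η i)‖ ^ 2 ≤ M * ∑ i ∈ s, ‖η i‖ ^ 2 := by
  set ζ := ∑ i ∈ s, P (A i) (η i) with hζ
  have h1 : ‖ζ‖ ^ 2 ≤ ∑ i ∈ s, ‖η i‖ * ‖P (A i) ζ‖ := by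
    have e : (‖ζ‖ ^ 2 : ℝ) = (⟪ζ, ζ⟫_ℂ).re := by
      rw [inner_self_eq_norm_sq_to_K]; norm_cast
    rw [e]
    conv_lhs => rw [hζ, sum_inner, Complex.re_sum]
    refine Finset.sum_le_sum fun i hi => ?_
    rw [h.inner_symm (hA i hi)]
    exact (Complex.re_le_norm _).trans (norm_inner_le_norm _ _)
  have h2 : (∑ i ∈ s, ‖η i‖ * ‖P (A i) ζ‖) ^ 2
      ≤ (∑ i ∈ s, ‖η i‖ ^ 2) * ∑ i ∈ s, ‖P (A i) ζ‖ ^ 2 :=
    Finset.sum_mul_sq_le_sq_mul_sq s _ _
  have h3 := h.mult s A hA M hM ζ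
  have h0 : 0 ≤ ∑ i ∈ s, ‖η i‖ ^ 2 := Finset.sum_nonneg fun i _ => sq_nonneg _
  rcases eq_or_lt_of_le (sq_nonneg ‖ζ‖) with hz | hz
  · rw [← hz]; positivity
  · have h4 : (‖ζ‖ ^ 2) ^ 2 ≤ (∑ i ∈ s, ‖η i‖ ^ 2) * (M * ‖ζ‖ ^ 2) :=
      (pow_le_pow_left₀ hz.le h1 2).trans (h2.trans (mul_le_mul_of_nonneg_left h3 h0))
    have h5 : ‖ζ‖ ^ 2 * ‖ζ‖ ^ 2 ≤ (M * ∑ i ∈ s, ‖η i‖ ^ 2) * ‖ζ‖ ^ 2 := by nlinarith [h4]
    exact le_of_mul_le_mul_right h5 hz

/-- disjoint sets: Bessel -/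
theorem bessel (h : Pv P) {ι : Type*} (s : Finset ι) (A : ι → Set X)
    (hA : ∀ i ∈ s, MeasurableSet (A i))
    (hd : ∀ i ∈ s, ∀ j ∈ s, i ≠ j → Disjoint (A i) (A j)) (ξ : K) :
    ∑ i ∈ s, ‖P (A i) ξ‖ ^ 2 ≤ ‖ξ‖ ^ 2 := by
  have := h.mult s A hA 1 (fun x t ht htx => by
    rw [Finset.card_le_one]
    intro i hi j hj
    by_contra hij
    exact Set.disjoint_left.1 (hd i (ht hi) j (ht hj) hij) (htx i hi) (htx j hj)) ξ
  simpa using this

end Pv

end Vale.Agent.P092.H464
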