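import Vale.Agent.P092.H464.Label

/-!
P092, TEAM D, block [D-KAK], helper464: **the discrete Kakeya estimate** `kak_chart` for abstract
sections `s`, `t` (homogeneous coordinates of points and lines).
-/

namespace Vale.Agent.P092.H464

open MeasureTheory Finset Vale.Agent.P092.H361 Vale.Agent.P092.H175.Kb

variable {K : Type*} [NormedAddCommGroup K] [InnerProductSpace ℂ K] [CompleteSpace K]
variable {X Y : Type*} [MeasurableSpace X] [MeasurableSpace Y]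
variable {s : X → Fin 3 → ℝ} {t : Y → Fin 3 → ℝ} {Pb Pc : Set X → (K →L[ℂ] K)}
variable {Ll Lm : Set Y → (K →L[ℂ] K)}

theorem W_norm_le (hb : Pv Pb) (hs : Measurable s) {r C : ℝ} {y : ℝ × ℝ} {F : X → ℂ}
    {W : K →L[ℂ] K} (hF : Adm s r C y F) (hW : Fun s Pb F W) : ‖W‖ ≤ 1 := by
  have h1 := hW.approx (Ch s) subset_rfl (meas_Ch hs) 0 1 zero_le_one (fun x hx => by
    rw [sub_zero]; exact hF.le_one x hx)
  rw [zero_smul, sub_zero] at h1
  have h2 : W = W * Pb (Ch s) := by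
    have e1 : (1 : K →L[ℂ] K) = Pb (Ch s)ᶜ + Pb (Ch s) := by
      rw [hb.compl _ (meas_Ch hs)]; abel
    calc W = W * 1 := (mul_one W).symm
      _ = W * Pb (Ch s)ᶜ + W * Pb (Ch s) := by
          conv_lhs => rw [e1]
          rw [mul_add]
      _ = _ := by rw [hW.off, zero_add]
  rw [h2]; exact h1

/-- multiplicity constant of the slabs -/
noncomputable def mz (C : ℝ) : ℕ := ⌊2 * (8 * (C + 3) + 1) + 1⌋₊

theorem floor_mem_box {M n : ℕ} {v : ℝ} (h : |v| < M) :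
    -(M * 2 ^ n : ℤ) ≤ ⌊2 ^ n * v⌋ ∧ ⌊2 ^ n * v⌋ < M * 2 ^ n := by
  rw [abs_lt] at h
  have h2 : (0 : ℝ) < 2 ^ n := by positivity
  constructor
  · rw [Int.le_floor]; push_cast; nlinarith [h.1]
  · rw [Int.floor_lt]; push_cast; nlinarith [h.2]

theorem label_est (hs : Measurable s) (ht : Measurable t) (hs0 : ∀ x, s x ≠ 0)
    (ht0 : ∀ ν, t ν ≠ 0) (hb : Pv Pb) (hc : Pv Pc) (hl : Pv Ll) (hm : Pv Lm)
    (hbl : CI (Inc s t) Pb Ll) (hcl : CI (Inc s t) Pc Ll) (hcm : CI (Inc s t) Pc Lm)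
    {κ : Type*} (S : Finset κ) (y : κ → ℝ × ℝ) (F : κ → X → ℂ) (W : κ → (K →L[ℂ] K))
    {r C : ℝ} (hC : 0 ≤ C) (hr : 0 < r) (j : ℕ) (hsmall : 8 * (C + 3) * (2 ^ j * r) ≤ 1)
    (hF : ∀ k ∈ S, Adm s r C (y k) (F k)) (hW : ∀ k ∈ S, Fun s Pb (F k) (W k))
    (c : ℤ × ℤ) (hlab : ∀ k ∈ S, ng j (y k) = c) (MB : ℕ)
    (hMB : ∀ ν, ∀ T ⊆ S, (∀ k ∈ T, ν ∈ disc t (y k) (C * r)) → T.card ≤ MB) (L' : ℕ) (ζ : K) :
    ∑ k ∈ S, ‖Lm (disc t (y k) (C * r)) (W k (Ll (piece t j c) ζ))‖ ^ 2 ≤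
      (((L' + 1 : ℕ) : ℝ) + 1) * (((L' + 1 : ℕ) : ℝ) * (mz C) * (2 * C + 8) * (6 * C + 1) ^ 2 * MB
        + S.card * (3 * C / 2 ^ L') ^ 2) * ‖Ll (piece t j c) ζ‖ ^ 2 := by
  classical
  set τ : ℝ := 2 ^ j with hτdef
  have hτ : 0 < τ := by positivity
  have hτ1 : 1 ≤ τ := one_le_pow₀ (by norm_num)
  have hσ : 0 < τ * r := mul_pos hτ hr
  have hσ1 : τ * r ≤ 1 := by nlinarith
  have hr1 : r ≤ 1 := by nlinarith
  set η : ℝ × ℝ := ((c.1 : ℝ) / τ, (c.2 : ℝ) / τ) with hη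
  have hy : ∀ k ∈ S, |(y k).1 - η.1| ≤ 1 / τ ∧ |(y k).2 - η.2| ≤ 1 / τ := by
    intro k hk
    have hk' := hlab k hk
    have h1 : (⌊2 ^ j * (y k).1⌋ : ℤ) = c.1 := congrArg Prod.fst hk'
    have h2 : (⌊2 ^ j * (y k).2⌋ : ℤ) = c.2 := congrArg Prod.snd hk'
    have c1 := ng_close j (y k).1
    have c2 := ng_close j (y k).2
    rw [h1] at c1
    rw [h2] at c2
    constructor
    · have e : (y k).1 - η.1 = (2 ^ j * (y k).1 - c.1) / τ := by
        rw [hη, hτdef]; field_simp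
      rw [e, abs_div, abs_of_pos hτ]; exact div_le_div_of_nonneg_right c1 hτ.le
    · have e : (y k).2 - η.2 = (2 ^ j * (y k).2 - c.2) / τ := by
        rw [hη, hτdef]; field_simp
      rw [e, abs_div, abs_of_pos hτ]; exact div_le_div_of_nonneg_right c2 hτ.le
  -- the box
  obtain ⟨M, hM⟩ : ∃ M : ℕ, C + 2 / r < M := exists_nat_gt _
  have hbox : ∀ k ∈ S, ∀ n : ℕ, ∀ x ∈ Ch s, |uq s (y k) x| ≤ C * r →
      idx s η r (τ * r) n x ∈ box M n := by
    intro k hk n x hx hux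
    have hrr : 1 ≤ 1 / r := by rw [le_div_iff₀ hr]; linarith
    have h1 : |hq s η x / r| < M := by
      have e : hq s η x = uq s (y k) x + ((y k).1 - η.1) + ((y k).2 - η.2) * pp s x := by
        rw [uq_eq (η := η)]; ring
      have h2 : |hq s η x| ≤ C * r + 2 := by
        rw [e]
        have h3 : |((y k).2 - η.2) * pp s x| ≤ 1 := by
          rw [abs_mul]
          calc _ ≤ (1 / τ) * 1 := mul_le_mul (hy k hk).2 hx.2 (abs_nonneg _) (by positivity)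
            _ ≤ 1 := by rw [mul_one, div_le_one hτ]; exact hτ1
        have h4 : |(y k).1 - η.1| ≤ 1 :=
          (hy k hk).1.trans (by rw [div_le_one hτ]; exact hτ1)
        calc _ ≤ |uq s (y k) x + ((y k).1 - η.1)| + |((y k).2 - η.2) * pp s x| := abs_add_le _ _
          _ ≤ (|uq s (y k) x| + |(y k).1 - η.1|) + |((y k).2 - η.2) * pp s x| :=
            add_le_add (abs_add_le _ _) le_rfl
          _ ≤ C * r + 2 := by linarith
      rw [abs_div, abs_of_pos hr]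
      refine lt_of_le_of_lt (div_le_div_of_nonneg_right h2 hr.le) ?_
      have : (C * r + 2) / r = C + 2 / r := by field_simp
      rw [this]; exact hM
    have h2 : |pp s x / (τ * r)| < M := by
      rw [abs_div, abs_of_pos hσ]
      have h3 : |pp s x| / (τ * r) ≤ 1 / r := by
        rw [div_le_div_iff₀ hσ hr]
        nlinarith [hx.2, abs_nonneg (pp s x)]
      refine lt_of_le_of_lt h3 (lt_of_le_of_lt ?_ hM)
      have : 2 / r = 1 / r + 1 / r := by ring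
      rw [this]; linarith
    exact mem_box.2 ⟨floor_mem_box h1, floor_mem_box h2⟩
  set T : κ → ℕ → Finset (ℤ × ℤ) := fun k n =>
    (box M n).filter (fun i => dd s η r (τ * r) (F k) n i ≠ 0) with hT
  have hmem : ∀ k n i, i ∈ T k n → dd s η r (τ * r) (F k) n i ≠ 0 := fun k n i hi =>
    (Finset.mem_filter.1 hi).2
  have key := core_op hb hc hm S (fun k => disc t (y k) (C * r)) (fun k _ => meas_disc ht _ _) MB
    hMB (fun a => slab s (τ * r) (8 * (C + 3) + 1) a) (fun a => meas_slab hs _ _ a) (mz C)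
    (fun x T' hT' => by
      have h1 := Vale.Agent.P092.H604.card_int_le (pp s x / (τ * r)) (8 * (C + 3) + 1)
        (by linarith) T' (fun c hc => (hT' c hc).2)
      exact Nat.le_floor h1)
    W (Ll (piece t j c)) (L' + 1) T (fun n i => cell s η r (τ * r) n i)
    (fun n _ i => meas_cell hs _ _ _ _ _) (fun n _ i i' h => cell_disjoint h)
    (fun k n i => dd s η r (τ * r) (F k) n i) (fun n i => i.2 / 2 ^ n) (3 * C / 2 ^ L')
    (6 * C + 1) (2 * C + 8) (by linarith) ζ ?_ ?_ ?_ ?_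
  · refine key.trans (le_of_eq ?_)
    ring
  · -- decomposition
    intro k hk
    have h1 := W_sub_GG hb hs (hW k hk) (hF k hk) hC hr hτ hσ1 (hy k hk).2 L'
      (M := M) (fun x hx hux => hbox k hk L' x hx hux)
    rw [GG_eq_sum hb hs] at h1
    have e : ∑ n ∈ Finset.range (L' + 1), ∑ i ∈ T k n,
        dd s η r (τ * r) (F k) n i • Pb (cell s η r (τ * r) n i)
        = ∑ n ∈ Finset.range (L' + 1), ∑ i ∈ box M n,
        dd s η r (τ * r) (F k) n i • Pb (cell s η r (τ * r) n i) := by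
      refine Finset.sum_congr rfl fun n _ => ?_
      refine Finset.sum_subset (Finset.filter_subset _ _) fun i hi hni => ?_
      have : dd s η r (τ * r) (F k) n i = 0 := by
        by_contra hne
        exact hni (Finset.mem_filter.2 ⟨hi, hne⟩)
      rw [this, zero_smul]
    rw [e]; exact h1
  · -- sizes
    intro k hk n _ i _
    exact dd_norm (hF k hk) hC hr hτ hσ1 (hy k hk).2 n i
  · -- count
    intro k hk n _ a
    exact count_le (hF k hk) hC hr hτ (hy k hk).2 n a _ (fun i hi =>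
      ⟨hmem k n i (Finset.mem_filter.1 hi).1, (Finset.mem_filter.1 hi).2⟩)
  · -- insertion
    intro k hk n _ i hi
    refine ins_cell hs ht hs0 ht0 hc hl hbl hcl hcm (hF k hk) hC hr hτ hsmall (hy k hk).2
      (meas_piece ht j c) ?_ (hmem k n i hi)
    intro ν hν
    have h1 := piece_notMem_near hν
    rw [← hlab k hk] at h1
    exact far_of_notMem h1

/-- constant of the Kakeya estimate -/
noncomputable def kakC (C : ℝ) : ℝ :=
  44100 * ((mz C) * (2 * C + 8) * (6 * C + 1) ^ 2 * (2 * ⌈C⌉₊ + 1) ^ 2 + 225 * C ^ 2)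
    + 2 * (2 * ⌈144 * (C + 3)⌉₊ + 1) ^ 2 + (2 * ⌈8 * (C + 3)⌉₊ + 1) ^ 2

theorem kakC_nonneg {C : ℝ} (hC : 0 ≤ C) : 0 ≤ kakC C := by
  unfold kakC; positivity

/-- **the discrete Kakeya estimate** -/
theorem kak_chart (hs : Measurable s) (ht : Measurable t) (hs0 : ∀ x, s x ≠ 0)
    (ht0 : ∀ ν, t ν ≠ 0) (hb : Pv Pb) (hc : Pv Pc) (hl : Pv Ll) (hm : Pv Lm)
    (hbl : CI (Inc s t) Pb Ll) (hcl : CI (Inc s t) Pc Ll) (hcm : CI (Inc s t) Pc Lm)
    {κ : Type*} (S : Finset κ) (y : κ → ℝ × ℝ) (F : κ → X → ℂ) (W : κ → (K →L[ℂ] K))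
    {r C : ℝ} (hC : 0 ≤ C) (hr : 0 < r) (hr1 : r ≤ 1) {N : ℕ}
    (hy : ∀ k ∈ S, |(y k).1| ≤ 1 ∧ |(y k).2| ≤ 1)
    (hcnt : ∀ n : ℝ × ℝ, #{k ∈ S | |(y k).1 - n.1| ≤ r ∧ |(y k).2 - n.2| ≤ r} ≤ N)
    (hF : ∀ k ∈ S, Adm s r C (y k) (F k)) (hW : ∀ k ∈ S, Fun s Pb (F k) (W k)) (ξ : K) :
    ∑ k ∈ S, ‖Lm (disc t (y k) (C * r)) (W k ξ)‖ ^ 2 ≤
      kakC C * N * (1 + Real.log (1 / r)) ^ 4 * ‖ξ‖ ^ 2 := by
  classical
  set ℓ : ℝ := 1 + Real.log (1 / r) with hℓ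
  have hr' : 1 ≤ 1 / r := by rw [le_div_iff₀ hr]; linarith
  have hlog0 : 0 ≤ Real.log (1 / r) := Real.log_nonneg hr'
  have hℓ1 : 1 ≤ ℓ := by linarith
  have hN0 : (0 : ℝ) ≤ N := Nat.cast_nonneg N
  have hξ0 : 0 ≤ ‖ξ‖ ^ 2 := sq_nonneg _
  have hVle : ∀ k ∈ S, ‖Lm (disc t (y k) (C * r)) * W k‖ ≤ 1 := fun k hk =>
    (norm_mul_le _ _).trans (by
      have h1 := hm.opNorm_le (meas_disc ht (y k) (C * r))
      have h2 := W_norm_le hb hs (hF k hk) (hW k hk)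
      calc _ ≤ 1 * 1 := mul_le_mul h1 h2 (norm_nonneg _) zero_le_one
        _ = 1 := one_mul 1)
  -- a general bound for the number of indices
  have hcard : ∀ m : ℕ, 1 ≤ m * r → (S.card : ℝ) ≤ (2 * m + 1) ^ 2 * N := by
    intro m hm1
    have h1 := card_square y S hr hcnt m (0, 0)
    have h2 : S.filter (fun k => |(y k).1 - ((0 : ℝ), (0 : ℝ)).1| ≤ m * r ∧
        |(y k).2 - ((0 : ℝ), (0 : ℝ)).2| ≤ m * r) = S := by
      refine Finset.filter_true_of_mem fun k hk => ?_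
      simp only [sub_zero]
      exact ⟨(hy k hk).1.trans hm1, (hy k hk).2.trans hm1⟩
    rw [h2] at h1
    exact_mod_cast h1
  set A0 : ℝ := 8 * (C + 3) with hA0
  have hA0pos : 0 < A0 := by positivity
  have hA01 : 1 ≤ A0 := by rw [hA0]; linarith
  by_cases hbig : 1 < A0 * r
  · -- large `r`: trivial estimate
    have h1 : (1 : ℝ) ≤ (⌈A0⌉₊ : ℝ) * r :=
      hbig.le.trans (mul_le_mul_of_nonneg_right (Nat.le_ceil A0) hr.le)
    have h2 := hcard _ h1
    have h3 : ∑ k ∈ S, ‖Lm (disc t (y k) (C * r)) (W k ξ)‖ ^ 2 ≤ S.card * ‖ξ‖ ^ 2 := by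
      calc _ ≤ ∑ _k ∈ S, ‖ξ‖ ^ 2 := by
            refine Finset.sum_le_sum fun k hk => ?_
            refine pow_le_pow_left₀ (norm_nonneg _) ?_ 2
            have := (Lm (disc t (y k) (C * r)) * W k).le_opNorm ξ
            calc _ ≤ ‖Lm (disc t (y k) (C * r)) * W k‖ * ‖ξ‖ := this
              _ ≤ 1 * ‖ξ‖ := mul_le_mul_of_nonneg_right (hVle k hk) (norm_nonneg _)
              _ = ‖ξ‖ := one_mul _
        _ = _ := by rw [Finset.sum_const, nsmul_eq_mul]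
    refine h3.trans (mul_le_mul_of_nonneg_right ?_ hξ0)
    have h4 : (1 : ℝ) ≤ ℓ ^ 4 := one_le_pow₀ hℓ1
    have h5 : (2 * (⌈A0⌉₊ : ℝ) + 1) ^ 2 ≤ kakC C := by
      unfold kakC
      have : (0 : ℝ) ≤ 44100 * ((mz C) * (2 * C + 8) * (6 * C + 1) ^ 2 * (2 * ⌈C⌉₊ + 1) ^ 2
        + 225 * C ^ 2) + 2 * (2 * ⌈144 * (C + 3)⌉₊ + 1) ^ 2 := by positivity
      linarith
    calc (S.card : ℝ) ≤ (2 * (⌈A0⌉₊ : ℝ) + 1) ^ 2 * N := h2
      _ ≤ kakC C * N := mul_le_mul_of_nonneg_right h5 hN0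
      _ ≤ kakC C * N * ℓ ^ 4 :=
          le_mul_of_one_le_right (mul_nonneg (kakC_nonneg hC) hN0) h4
  · push Not at hbig
    -- the last scale
    have hx1 : 1 ≤ 1 / (A0 * r) := by rw [le_div_iff₀ (by positivity)]; linarith
    obtain ⟨J, hJ1, hJ2⟩ := exists_nat_pow_near hx1 (by norm_num : (1 : ℝ) < 2)
    obtain ⟨l, hl1, hl2⟩ := exists_nat_pow_near hr' (by norm_num : (1 : ℝ) < 2)
    have hJsmall : A0 * (2 ^ J * r) ≤ 1 := by
      rw [le_div_iff₀ (by positivity)] at hJ1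
      calc A0 * (2 ^ J * r) = 2 ^ J * (A0 * r) := by ring
        _ ≤ 1 := hJ1
    have hlog2 : (1 : ℝ) / 2 ≤ Real.log 2 := by
      have := Real.log_two_gt_d9; linarith
    have hbnd : ∀ n : ℕ, (2 : ℝ) ^ n ≤ 1 / r → (n : ℝ) ≤ 2 * Real.log (1 / r) := by
      intro n hn
      have h1 := Real.log_le_log (by positivity) hn
      rw [Real.log_pow] at h1
      have h2 : (0 : ℝ) ≤ n := Nat.cast_nonneg n
      nlinarith
    have hJl : (J : ℝ) ≤ 2 * Real.log (1 / r) := by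
      refine hbnd J ?_
      refine hJ1.trans ?_
      exact div_le_div_of_nonneg_left zero_le_one hr (by nlinarith)
    have hll : (l : ℝ) ≤ 2 * Real.log (1 / r) := hbnd l hl1
    set m : ℕ := ⌈144 * (C + 3)⌉₊ with hm_def
    have hm1 : 144 * (C + 3) ≤ (m : ℝ) := Nat.le_ceil _
    have hJm : (9 : ℝ) ≤ m * r * 2 ^ J := by
      rw [div_lt_iff₀ (by positivity)] at hJ2
      have h1 : (1 : ℝ) < 2 ^ J * (2 * (A0 * r)) := by
        calc (1 : ℝ) < 2 ^ (J + 1) * (A0 * r) := hJ2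
          _ = _ := by ring
      have h2 : (0 : ℝ) < r * 2 ^ J := by positivity
      calc (9 : ℝ) ≤ 9 * (2 ^ J * (2 * (A0 * r))) := by linarith
        _ = 144 * (C + 3) * (r * 2 ^ J) := by rw [hA0]; ring
        _ ≤ m * (r * 2 ^ J) := mul_le_mul_of_nonneg_right hm1 h2.le
        _ = _ := by ring
    -- multiplicity of the discs
    set MB : ℕ := (2 * ⌈C⌉₊ + 1) ^ 2 * N with hMBdef
    have hMB : ∀ S' ⊆ S, ∀ ν, ∀ T ⊆ S', (∀ k ∈ T, ν ∈ disc t (y k) (C * r)) → T.card ≤ MB := by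
      intro S' hS' ν T hT h
      refine le_trans (Finset.card_le_card ?_)
        (card_square y S hr hcnt ⌈C⌉₊ (et1 (t ν), et2 (t ν)))
      intro k hk
      have h1 := h k hk
      have h2 : C * r ≤ ⌈C⌉₊ * r := mul_le_mul_of_nonneg_right (Nat.le_ceil C) hr.le
      refine Finset.mem_filter.2 ⟨hS' (hT hk), ?_, ?_⟩
      · rw [abs_sub_comm]; exact h1.2.1.trans h2
      · rw [abs_sub_comm]; exact h1.2.2.trans h2
    set L' : ℕ := l + 1 with hL'
    -- the crude remainder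
    have hrem : (S.card : ℝ) * (3 * C / 2 ^ L') ^ 2 ≤ 225 * C ^ 2 * N := by
      have h1 : (1 : ℝ) ≤ (⌈1 / r⌉₊ : ℝ) * r := by
        have := mul_le_mul_of_nonneg_right (Nat.le_ceil (1 / r)) hr.le
        rwa [div_mul_cancel₀ _ hr.ne'] at this
      have h2 := hcard _ h1
      have h3 : (⌈1 / r⌉₊ : ℝ) ≤ 2 / r := by
        have := (Nat.ceil_lt_add_one (by positivity : (0 : ℝ) ≤ 1 / r)).le
        calc (⌈1 / r⌉₊ : ℝ) ≤ 1 / r + 1 := this
          _ ≤ 1 / r + 1 / r := by linarith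
          _ = 2 / r := by ring
      have h4 : 2 * (⌈1 / r⌉₊ : ℝ) + 1 ≤ 5 / r := by
        calc 2 * (⌈1 / r⌉₊ : ℝ) + 1 ≤ 2 * (2 / r) + 1 / r := by linarith
          _ = 5 / r := by ring
      have h5 : (2 * (⌈1 / r⌉₊ : ℝ) + 1) ^ 2 ≤ (5 / r) ^ 2 :=
        pow_le_pow_left₀ (by positivity) h4 2
      have h6 : (3 * C / 2 ^ L') ^ 2 ≤ (3 * C * r) ^ 2 := by
        refine pow_le_pow_left₀ (by positivity) ?_ 2
        rw [div_le_iff₀ (by positivity)]
        have h7 : (1 : ℝ) ≤ r * 2 ^ L' := by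
          rw [hL']
          rw [div_lt_iff₀ hr] at hl2
          linarith
        nlinarith [mul_nonneg hC hr.le]
      calc (S.card : ℝ) * (3 * C / 2 ^ L') ^ 2
          ≤ ((5 / r) ^ 2 * N) * (3 * C * r) ^ 2 :=
            mul_le_mul (h2.trans (mul_le_mul_of_nonneg_right h5 hN0)) h6 (sq_nonneg _)
              (by positivity)
        _ = 225 * C ^ 2 * N := by field_simp; ring
    set A : ℝ := (((L' + 1 : ℕ) : ℝ) + 1) * (((L' + 1 : ℕ) : ℝ) * (mz C) * (2 * C + 8)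
      * (6 * C + 1) ^ 2 * MB + 225 * C ^ 2 * N) with hA
    have hA' : 0 ≤ A := by positivity
    have hfin := kb hl ht y S hy hr hcnt J m hJm
      (fun k => Lm (disc t (y k) (C * r)) * W k) hVle A hA' (by
        intro j hj c ζ
        have hsm : 8 * (C + 3) * (2 ^ j * r) ≤ 1 := by
          refine le_trans ?_ hJsmall
          refine mul_le_mul_of_nonneg_left (mul_le_mul_of_nonneg_right ?_ hr.le) hA0pos.le
          exact pow_le_pow_right₀ (by norm_num) hj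
        have h1 := label_est hs ht hs0 ht0 hb hc hl hm hbl hcl hcm
          (S.filter fun k => ng j (y k) = c) y F W hC hr j hsm
          (fun k hk => hF k (Finset.mem_filter.1 hk).1)
          (fun k hk => hW k (Finset.mem_filter.1 hk).1) c
          (fun k hk => (Finset.mem_filter.1 hk).2) MB
          (hMB _ (Finset.filter_subset _ _)) L' ζ
        refine h1.trans (mul_le_mul_of_nonneg_right ?_ (sq_nonneg _))
        rw [hA]
        refine mul_le_mul_of_nonneg_left ?_ (by positivity)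
        refine add_le_add le_rfl (le_trans ?_ hrem)
        refine mul_le_mul_of_nonneg_right ?_ (sq_nonneg _)
        exact_mod_cast Finset.card_le_card (Finset.filter_subset _ _)) ξ
    refine (le_of_eq ?_).trans (hfin.trans (mul_le_mul_of_nonneg_right ?_ hξ0))
    · rfl
    -- numerics
    have hMBr : (MB : ℝ) = (2 * ⌈C⌉₊ + 1) ^ 2 * N := by rw [hMBdef]; push_cast; ring
    set a1 : ℝ := (mz C) * (2 * C + 8) * (6 * C + 1) ^ 2 * (2 * ⌈C⌉₊ + 1) ^ 2 with ha1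
    have ha10 : 0 ≤ a1 := by positivity
    have hL1 : (((L' + 1 : ℕ) : ℝ)) ≤ 3 * ℓ := by rw [hL']; push_cast; linarith
    have hL2 : (((L' + 1 : ℕ) : ℝ)) + 1 ≤ 3 * ℓ := by rw [hL']; push_cast; linarith
    have hAle : A ≤ 9 * ℓ ^ 2 * ((a1 + 225 * C ^ 2) * N) := by
      have e1 : ((L' + 1 : ℕ) : ℝ) * (mz C) * (2 * C + 8) * (6 * C + 1) ^ 2 * MB
          = ((L' + 1 : ℕ) : ℝ) * (a1 * N) := by rw [hMBr, ha1]; ring
      rw [hA, e1]
      have h1 : ((L' + 1 : ℕ) : ℝ) * (a1 * N) + 225 * C ^ 2 * N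
          ≤ 3 * ℓ * ((a1 + 225 * C ^ 2) * N) := by
        have h2 : ((L' + 1 : ℕ) : ℝ) * (a1 * N) ≤ 3 * ℓ * (a1 * N) :=
          mul_le_mul_of_nonneg_right hL1 (by positivity)
        have h3 : 225 * C ^ 2 * N ≤ 3 * ℓ * (225 * C ^ 2 * N) :=
          le_mul_of_one_le_left (by positivity) (by linarith)
        calc _ ≤ 3 * ℓ * (a1 * N) + 3 * ℓ * (225 * C ^ 2 * N) := add_le_add h2 h3
          _ = _ := by ring
      calc _ ≤ (3 * ℓ) * (3 * ℓ * ((a1 + 225 * C ^ 2) * N)) :=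
            mul_le_mul hL2 h1 (by positivity) (by positivity)
        _ = _ := by ring
    have hJ3 : (J : ℝ) + 2 ≤ 2 * ℓ := by linarith
    have hJ4 : (J : ℝ) + 1 ≤ 2 * ℓ := by linarith
    have hcast : (((2 * m + 1) ^ 2 * N : ℕ) : ℝ) = (2 * m + 1) ^ 2 * N := by push_cast; ring
    rw [hcast]
    have hB1 : ((J : ℝ) + 1) * (A * 35 ^ 2) + (2 * m + 1) ^ 2 * N
        ≤ ℓ ^ 3 * (22050 * ((a1 + 225 * C ^ 2) * N) + (2 * m + 1) ^ 2 * N) := by
      have h1 : ((J : ℝ) + 1) * (A * 35 ^ 2)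
          ≤ (2 * ℓ) * ((9 * ℓ ^ 2 * ((a1 + 225 * C ^ 2) * N)) * 35 ^ 2) :=
        mul_le_mul hJ4 (mul_le_mul_of_nonneg_right hAle (by norm_num)) (by positivity)
          (by positivity)
      have h2 : ((2 : ℝ) * m + 1) ^ 2 * N ≤ ℓ ^ 3 * ((2 * m + 1) ^ 2 * N) :=
        le_mul_of_one_le_left (by positivity) (one_le_pow₀ hℓ1)
      calc _ ≤ (2 * ℓ) * ((9 * ℓ ^ 2 * ((a1 + 225 * C ^ 2) * N)) * 35 ^ 2)
            + ℓ ^ 3 * ((2 * m + 1) ^ 2 * N) := add_le_add h1 h2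
        _ = _ := by ring
    calc ((J : ℝ) + 2) * (((J : ℝ) + 1) * (A * 35 ^ 2) + (2 * m + 1) ^ 2 * N)
        ≤ (2 * ℓ) * (ℓ ^ 3 * (22050 * ((a1 + 225 * C ^ 2) * N) + (2 * m + 1) ^ 2 * N)) :=
          mul_le_mul hJ3 hB1 (by positivity) (by positivity)
      _ = (44100 * (a1 + 225 * C ^ 2) + 2 * (2 * m + 1) ^ 2) * N * ℓ ^ 4 := by ring
      _ ≤ kakC C * N * ℓ ^ 4 := by
          refine mul_le_mul_of_nonneg_right (mul_le_mul_of_nonneg_right ?_ hN0) (by positivity)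
          unfold kakC
          rw [← ha1, ← hm_def]
          have : (0 : ℝ) ≤ (2 * ⌈8 * (C + 3)⌉₊ + 1) ^ 2 := by positivity
          linarith

end Vale.Agent.P092.H464
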