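import Mathlib

/-!
P092, TEAM D, block [D-KAK] (KC), helper464: elementary geometry of lines and points in the chart
`(h : 1 : p)`, `h = y₁ + y₂ p`.
-/

namespace Vale.Agent.P092.H464

/-- value of the line `v` against the two chart coefficients of `y` -/
def al (y : ℝ × ℝ) (v : Fin 3 → ℝ) : ℝ := v 0 * y.1 + v 1
def be (y : ℝ × ℝ) (v : Fin 3 → ℝ) : ℝ := v 0 * y.2 + v 2
/-- distance (up to normalisation) of the line `v` and the chart line `y` -/
def DD (y : ℝ × ℝ) (v : Fin 3 → ℝ) : ℝ := max |al y v| |be y v|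

theorem DD_nonneg (y : ℝ × ℝ) (v : Fin 3 → ℝ) : 0 ≤ DD y v :=
  (abs_nonneg _).trans (le_max_left _ _)

theorem DD_pos {y : ℝ × ℝ} {v : Fin 3 → ℝ} {τ : ℝ} (hv : v ≠ 0) (h0 : 7 * |v 0| ≤ τ * DD y v) :
    0 < DD y v := by
  rcases (DD_nonneg y v).lt_or_eq with h | h
  · exact h
  · exfalso
    apply hv
    rw [← h, mul_zero] at h0
    have hv0 : v 0 = 0 := by
      have : |v 0| ≤ 0 := by linarith
      exact abs_eq_zero.1 (le_antisymm this (abs_nonneg _))
    have ha : |al y v| ≤ 0 := by rw [h]; exact le_max_left _ _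
    have hb : |be y v| ≤ 0 := by rw [h]; exact le_max_right _ _
    have ha' : al y v = 0 := abs_eq_zero.1 (le_antisymm ha (abs_nonneg _))
    have hb' : be y v = 0 := abs_eq_zero.1 (le_antisymm hb (abs_nonneg _))
    rw [al, hv0] at ha'
    rw [be, hv0] at hb'
    ext i
    fin_cases i
    · simpa using hv0
    · simpa using ha'
    · simpa using hb'

/-- a line far from `y` which passes near the point `(h : 1 : p)` of the strip of `y` meets the
strip of `y` only near that point -/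
theorem cross' {y : ℝ × ℝ} {h p r τ C3 CB : ℝ} {v z : Fin 3 → ℝ} (hv : v ≠ 0) (hz : z ≠ 0)
    (hr : 0 < r) (hτ : 0 < τ) (hC3 : 0 ≤ C3) (hCB : 0 ≤ CB)
    (hp : |p| ≤ 2) (h0 : 7 * |v 0| ≤ τ * DD y v)
    (hQ : |v 0 * h + v 1 + v 2 * p| ≤ 2 * (τ * r) * DD y v)
    (hu : |h - y.1 - y.2 * p| ≤ C3 * r)
    (hzm : |z 0 - y.1 * z 1 - y.2 * z 2| ≤ CB * r * (|z 1| + |z 2|))
    (hvz : v 0 * z 0 + v 1 * z 1 + v 2 * z 2 = 0)
    (hs1 : (2 + C3 / 7) * (τ * r) ≤ 1 / 4) (hs2 : CB / 7 * (τ * r) ≤ 1 / 8) :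
    z 1 ≠ 0 ∧ |z 2 / z 1 - p| ≤ 8 * (2 + C3 / 7 + 3 * CB / 7) * (τ * r) := by
  set D := DD y v with hDdef
  set σ := τ * r with hσ
  have hσ0 : 0 < σ := mul_pos hτ hr
  have hD : 0 < D := DD_pos hv h0
  set α := al y v with hα
  set β := be y v with hβ
  have hαD : |α| ≤ D := le_max_left _ _
  have hβD : |β| ≤ D := le_max_right _ _
  -- `|v 0| r ≤ σ D / 7`
  have hv0r : |v 0| * r ≤ σ * D / 7 := by
    have := mul_le_mul_of_nonneg_right h0 hr.le
    have e : τ * D * r = σ * D := by rw [hσ]; ring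
    rw [e] at this
    linarith
  -- `e = α + β p`
  set e := α + β * p with he
  have he1 : |e| ≤ (2 + C3 / 7) * σ * D := by
    have e1 : e = (v 0 * h + v 1 + v 2 * p) - v 0 * (h - y.1 - y.2 * p) := by
      rw [he, hα, hβ, al, be]; ring
    have e2 : |v 0 * (h - y.1 - y.2 * p)| ≤ C3 * (σ * D / 7) := by
      rw [abs_mul]
      calc |v 0| * |h - y.1 - y.2 * p| ≤ |v 0| * (C3 * r) :=
            mul_le_mul_of_nonneg_left hu (abs_nonneg _)
        _ = C3 * (|v 0| * r) := by ring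
        _ ≤ C3 * (σ * D / 7) := mul_le_mul_of_nonneg_left hv0r hC3
    calc |e| ≤ |v 0 * h + v 1 + v 2 * p| + |v 0 * (h - y.1 - y.2 * p)| := by
          rw [e1]; exact abs_sub _ _
      _ ≤ 2 * σ * D + C3 * (σ * D / 7) := add_le_add hQ e2
      _ = (2 + C3 / 7) * σ * D := by ring
  have he2 : |e| ≤ D / 4 := by
    calc |e| ≤ (2 + C3 / 7) * σ * D := he1
      _ ≤ 1 / 4 * D := mul_le_mul_of_nonneg_right hs1 hD.le
      _ = D / 4 := by ring
  -- `|β| ≥ D / 4`
  have hβ4 : D / 4 ≤ |β| := by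
    by_contra hcon
    push Not at hcon
    have h1 : |α| < D := by
      have : α = e - β * p := by rw [he]; ring
      calc |α| = |e - β * p| := by rw [this]
        _ ≤ |e| + |β * p| := abs_sub _ _
        _ = |e| + |β| * |p| := by rw [abs_mul]
        _ ≤ D / 4 + |β| * 2 := add_le_add he2 (mul_le_mul_of_nonneg_left hp (abs_nonneg _))
        _ < D / 4 + D / 4 * 2 := by linarith
        _ ≤ D := by linarith
    have h2 : |β| < D := by linarith
    exact absurd (max_lt h1 h2) (lt_irrefl D)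
  -- main identity
  have hmain : e * z 1 + β * (z 2 - p * z 1) = - (v 0 * (z 0 - y.1 * z 1 - y.2 * z 2)) := by
    rw [he, hα, hβ, al, be]; linear_combination hvz
  have hz2 : |z 2| ≤ |z 2 - p * z 1| + 2 * |z 1| := by
    calc |z 2| = |(z 2 - p * z 1) + p * z 1| := by ring_nf
      _ ≤ |z 2 - p * z 1| + |p * z 1| := abs_add_le _ _
      _ = |z 2 - p * z 1| + |p| * |z 1| := by rw [abs_mul]
      _ ≤ _ := by
        have := mul_le_mul_of_nonneg_right hp (abs_nonneg (z 1))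
        linarith
  have hrhs : |v 0 * (z 0 - y.1 * z 1 - y.2 * z 2)| ≤ CB / 7 * σ * D * (|z 1| + |z 2|) := by
    rw [abs_mul]
    calc |v 0| * |z 0 - y.1 * z 1 - y.2 * z 2| ≤ |v 0| * (CB * r * (|z 1| + |z 2|)) :=
          mul_le_mul_of_nonneg_left hzm (abs_nonneg _)
      _ = CB * (|z 1| + |z 2|) * (|v 0| * r) := by ring
      _ ≤ CB * (|z 1| + |z 2|) * (σ * D / 7) :=
          mul_le_mul_of_nonneg_left hv0r (mul_nonneg hCB (by positivity))
      _ = _ := by ring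
  set Δ := |z 2 - p * z 1| with hΔ
  have hΔ0 : 0 ≤ Δ := abs_nonneg _
  have hz10 : 0 ≤ |z 1| := abs_nonneg _
  have key : D / 4 * Δ ≤ (2 + C3 / 7) * σ * D * |z 1| + CB / 7 * σ * D * (|z 1| + |z 2|) := by
    calc D / 4 * Δ ≤ |β| * Δ := mul_le_mul_of_nonneg_right hβ4 hΔ0
      _ = |β * (z 2 - p * z 1)| := by rw [abs_mul]
      _ = |-(v 0 * (z 0 - y.1 * z 1 - y.2 * z 2)) - e * z 1| := by rw [← hmain]; ring_nf
      _ ≤ |-(v 0 * (z 0 - y.1 * z 1 - y.2 * z 2))| + |e * z 1| := abs_sub _ _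
      _ = |v 0 * (z 0 - y.1 * z 1 - y.2 * z 2)| + |e| * |z 1| := by rw [abs_neg, abs_mul e]
      _ ≤ CB / 7 * σ * D * (|z 1| + |z 2|) + (2 + C3 / 7) * σ * D * |z 1| :=
          add_le_add hrhs (mul_le_mul_of_nonneg_right he1 hz10)
      _ = _ := by ring
  have key2 : D / 4 * Δ ≤ (2 + C3 / 7) * σ * D * |z 1| + CB / 7 * σ * D * (3 * |z 1|)
      + 1 / 8 * D * Δ := by
    have h1 : CB / 7 * σ * D * (|z 1| + |z 2|) ≤ CB / 7 * σ * D * (3 * |z 1| + Δ) := by
      apply mul_le_mul_of_nonneg_left (by linarith)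
      positivity
    have h2 : CB / 7 * σ * D * Δ ≤ 1 / 8 * D * Δ := by
      have := mul_le_mul_of_nonneg_right hs2 (mul_nonneg hD.le hΔ0)
      calc CB / 7 * σ * D * Δ = CB / 7 * σ * (D * Δ) := by ring
        _ ≤ 1 / 8 * (D * Δ) := this
        _ = _ := by ring
    calc D / 4 * Δ ≤ _ := key
      _ ≤ (2 + C3 / 7) * σ * D * |z 1| + CB / 7 * σ * D * (3 * |z 1| + Δ) := by linarith
      _ = (2 + C3 / 7) * σ * D * |z 1| + CB / 7 * σ * D * (3 * |z 1|) + CB / 7 * σ * D * Δ := by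
          ring
      _ ≤ _ := by linarith
  have key3 : Δ ≤ 8 * (2 + C3 / 7 + 3 * CB / 7) * σ * |z 1| := by
    have : D / 8 * Δ ≤ D / 8 * (8 * (2 + C3 / 7 + 3 * CB / 7) * σ * |z 1|) := by
      have e1 : D / 8 * (8 * (2 + C3 / 7 + 3 * CB / 7) * σ * |z 1|)
          = (2 + C3 / 7) * σ * D * |z 1| + CB / 7 * σ * D * (3 * |z 1|) := by ring
      rw [e1]; linarith
    exact le_of_mul_le_mul_left this (by positivity)
  have hz1 : z 1 ≠ 0 := by
    intro hz1
    apply hz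
    rw [hz1, abs_zero, mul_zero] at key3
    have hΔz : Δ = 0 := le_antisymm key3 hΔ0
    rw [hΔ, hz1, mul_zero, sub_zero, abs_eq_zero] at hΔz
    rw [hz1, hΔz, abs_zero, mul_zero, mul_zero, sub_zero, sub_zero, add_zero, mul_zero] at hzm
    have hz0 : z 0 = 0 := abs_eq_zero.1 (le_antisymm hzm (abs_nonneg _))
    ext i
    fin_cases i
    · simpa using hz0
    · simpa using hz1
    · simpa using hΔz
  refine ⟨hz1, ?_⟩
  have hz1' : 0 < |z 1| := abs_pos.2 hz1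
  have e1 : z 2 / z 1 - p = (z 2 - p * z 1) / z 1 := by field_simp
  rw [e1, abs_div, div_le_iff₀ hz1']
  exact key3

/-- a line incident to a point of the cell of the corner `(h, p)` passes near the corner -/
theorem near_corner {y η : ℝ × ℝ} {h p h' p' r τ : ℝ} {v : Fin 3 → ℝ}
    (hr : 0 < r) (hτ : 0 < τ) (h0 : 7 * |v 0| ≤ τ * DD y v)
    (hy2 : |y.2 - η.2| ≤ 1 / τ)
    (hI : v 0 * h' + v 1 + v 2 * p' = 0)
    (hh : |(h - η.1 - η.2 * p) - (h' - η.1 - η.2 * p')| ≤ r) (hpp : |p - p'| ≤ τ * r) :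
    |v 0 * h + v 1 + v 2 * p| ≤ 2 * (τ * r) * DD y v := by
  set D := DD y v with hDdef
  have hD0 : 0 ≤ D := DD_nonneg y v
  have e1 : v 0 * h + v 1 + v 2 * p
      = v 0 * ((h - η.1 - η.2 * p) - (h' - η.1 - η.2 * p'))
        + (be y v - v 0 * (y.2 - η.2)) * (p - p') := by
    rw [be]; linear_combination hI
  have hv0 : |v 0| ≤ τ * D / 7 := by linarith
  have h1 : |v 0 * ((h - η.1 - η.2 * p) - (h' - η.1 - η.2 * p'))| ≤ (τ * D / 7) * r := by
    rw [abs_mul]; exact mul_le_mul hv0 hh (abs_nonneg _) (by positivity)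
  have h2 : |be y v - v 0 * (y.2 - η.2)| ≤ D + D / 7 := by
    calc |be y v - v 0 * (y.2 - η.2)| ≤ |be y v| + |v 0 * (y.2 - η.2)| := abs_sub _ _
      _ ≤ D + (τ * D / 7) * (1 / τ) := by
        refine add_le_add (le_max_right _ _) ?_
        rw [abs_mul]; exact mul_le_mul hv0 hy2 (abs_nonneg _) (by positivity)
      _ = D + D / 7 := by field_simp
  have h3 : |(be y v - v 0 * (y.2 - η.2)) * (p - p')| ≤ (D + D / 7) * (τ * r) := by
    rw [abs_mul]; exact mul_le_mul h2 hpp (abs_nonneg _) (by positivity)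
  calc |v 0 * h + v 1 + v 2 * p| ≤ (τ * D / 7) * r + (D + D / 7) * (τ * r) := by
        rw [e1]; exact (abs_add_le _ _).trans (add_le_add h1 h3)
    _ ≤ 2 * (τ * r) * D := by nlinarith [mul_nonneg (mul_nonneg hτ.le hr.le) hD0]

/-- a point on a line near `y` lies in the strip of `y` -/
theorem in_strip {y m : ℝ × ℝ} {δ : ℝ} {z : Fin 3 → ℝ} (h1 : |m.1 - y.1| ≤ δ)
    (h2 : |m.2 - y.2| ≤ δ) (hz : z 0 = m.1 * z 1 + m.2 * z 2) :
    |z 0 - y.1 * z 1 - y.2 * z 2| ≤ δ * (|z 1| + |z 2|) := by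
  have e : z 0 - y.1 * z 1 - y.2 * z 2 = (m.1 - y.1) * z 1 + (m.2 - y.2) * z 2 := by
    rw [hz]; ring
  rw [e]
  calc |(m.1 - y.1) * z 1 + (m.2 - y.2) * z 2| ≤ |(m.1 - y.1) * z 1| + |(m.2 - y.2) * z 2| :=
        abs_add_le _ _
    _ ≤ δ * |z 1| + δ * |z 2| := by
        rw [abs_mul, abs_mul]
        exact add_le_add (mul_le_mul_of_nonneg_right h1 (abs_nonneg _))
          (mul_le_mul_of_nonneg_right h2 (abs_nonneg _))
    _ = _ := by ring

end Vale.Agent.P092.H464
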