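import Vale.Agent.P092.H464.Pv
import Vale.Agent.P092.H464.Cross

/-!
P092, TEAM D, block [D-KAK] (KC), helper464: the sheared dyadic cells of the chart, the corner
coefficients of a family of anisotropic Lipschitz functions, and the decomposition of `W k`.
-/

namespace Vale.Agent.P092.H464

open MeasureTheory

section floor

theorem floor_half (x : ℝ) : ⌊x⌋ = ⌊2 * x⌋ / 2 := by
  rw [Int.floor_eq_iff]
  have h1 : (⌊2 * x⌋ : ℝ) ≤ 2 * x := Int.floor_le _
  have h2 : 2 * x < (⌊2 * x⌋ : ℝ) + 1 := Int.lt_floor_add_one _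
  set m := ⌊2 * x⌋
  have e1 : 2 * (m / 2) ≤ m := by omega
  have e2 : m + 1 ≤ 2 * (m / 2) + 2 := by omega
  have e1' : (2 : ℝ) * ((m / 2 : ℤ) : ℝ) ≤ (m : ℝ) := by exact_mod_cast e1
  have e2' : (m : ℝ) + 1 ≤ 2 * ((m / 2 : ℤ) : ℝ) + 2 := by exact_mod_cast e2
  constructor <;> linarith

theorem floor_step (n : ℕ) (x : ℝ) : ⌊2 ^ n * x⌋ = ⌊2 ^ (n + 1) * x⌋ / 2 := by
  rw [floor_half (2 ^ n * x)]
  congr 2
  ring

theorem floor_pow (n : ℕ) (x : ℝ) : ⌊x⌋ = ⌊2 ^ n * x⌋ / 2 ^ n := by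
  induction n with
  | zero => simp
  | succ n ih =>
    rw [ih, floor_step n x, Int.ediv_ediv_of_nonneg (by norm_num), pow_succ]
    ring_nf

end floor

section Cells

variable {X : Type*} (s : X → Fin 3 → ℝ)

/-- chart coordinates of points -/
noncomputable def hh (x : X) : ℝ := s x 0 / s x 1
noncomputable def pp (x : X) : ℝ := s x 2 / s x 1
def Ch : Set X := {x | s x 1 ≠ 0 ∧ |pp s x| ≤ 1}

/-- sheared first coordinate -/
noncomputable def hq (η : ℝ × ℝ) (x : X) : ℝ := hh s x - η.1 - η.2 * pp s x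

/-- index of the level `n` cell of a point -/
noncomputable def idx (η : ℝ × ℝ) (r σ : ℝ) (n : ℕ) (x : X) : ℤ × ℤ :=
  (⌊2 ^ n * (hq s η x / r)⌋, ⌊2 ^ n * (pp s x / σ)⌋)

def cell (η : ℝ × ℝ) (r σ : ℝ) (n : ℕ) (i : ℤ × ℤ) : Set X :=
  {x | x ∈ Ch s ∧ idx s η r σ n x = i}

/-- parent index -/
def par (i : ℤ × ℤ) : ℤ × ℤ := (i.1 / 2, i.2 / 2)

theorem idx_par (η : ℝ × ℝ) (r σ : ℝ) (n : ℕ) (x : X) :
    idx s η r σ n x = par (idx s η r σ (n + 1) x) := by
  rw [idx, idx, par]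
  rw [floor_step n (hq s η x / r), floor_step n (pp s x / σ)]

variable {s}

theorem cell_disjoint {η : ℝ × ℝ} {r σ : ℝ} {n : ℕ} {i j : ℤ × ℤ} (hij : i ≠ j) :
    Disjoint (cell s η r σ n i) (cell s η r σ n j) :=
  Set.disjoint_left.2 fun _ hx hy => hij (hx.2.symm.trans hy.2)

theorem cell_subset_par {η : ℝ × ℝ} {r σ : ℝ} {n : ℕ} {i : ℤ × ℤ} :
    cell s η r σ (n + 1) i ⊆ cell s η r σ n (par i) := fun x hx =>
  ⟨hx.1, by rw [idx_par, hx.2]⟩

variable [MeasurableSpace X]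

theorem meas_pp (hs : Measurable s) : Measurable (pp s) :=
  ((measurable_pi_apply 2).comp hs).div ((measurable_pi_apply 1).comp hs)

theorem meas_hh (hs : Measurable s) : Measurable (hh s) :=
  ((measurable_pi_apply 0).comp hs).div ((measurable_pi_apply 1).comp hs)

theorem meas_hq (hs : Measurable s) (η : ℝ × ℝ) : Measurable (hq s η) :=
  ((meas_hh hs).sub measurable_const).sub (measurable_const.mul (meas_pp hs))

theorem meas_Ch (hs : Measurable s) : MeasurableSet (Ch s) := by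
  have h1 : MeasurableSet {x | s x 1 ≠ 0} :=
    (measurableSet_eq_fun ((measurable_pi_apply 1).comp hs) measurable_const).compl
  have h2 : MeasurableSet {x | |pp s x| ≤ 1} :=
    measurableSet_le (meas_pp hs).abs measurable_const
  exact h1.inter h2

theorem meas_idx (hs : Measurable s) (η : ℝ × ℝ) (r σ : ℝ) (n : ℕ) :
    Measurable (idx s η r σ n) := by
  have h1 : Measurable fun x => 2 ^ n * (hq s η x / r) :=
    measurable_const.mul ((meas_hq hs η).div measurable_const)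
  have h2 : Measurable fun x => 2 ^ n * (pp s x / σ) :=
    measurable_const.mul ((meas_pp hs).div measurable_const)
  exact (Int.measurable_floor.comp h1).prodMk (Int.measurable_floor.comp h2)

theorem meas_cell (hs : Measurable s) (η : ℝ × ℝ) (r σ : ℝ) (n : ℕ) (i : ℤ × ℤ) :
    MeasurableSet (cell s η r σ n i) :=
  (meas_Ch hs).inter ((meas_idx hs η r σ n) (measurableSet_singleton i))

end Cells

section Box

/-- the finite box of indices at level `n` -/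
noncomputable def box (M n : ℕ) : Finset (ℤ × ℤ) :=
  Finset.Ico (-(M * 2 ^ n : ℤ)) (M * 2 ^ n) ×ˢ Finset.Ico (-(M * 2 ^ n : ℤ)) (M * 2 ^ n)

theorem mem_box {M n : ℕ} {i : ℤ × ℤ} : i ∈ box M n ↔
    (-(M * 2 ^ n : ℤ) ≤ i.1 ∧ i.1 < M * 2 ^ n) ∧ (-(M * 2 ^ n : ℤ) ≤ i.2 ∧ i.2 < M * 2 ^ n) := by
  rw [box, Finset.mem_product, Finset.mem_Ico, Finset.mem_Ico]

theorem par_mem_box {M n : ℕ} {i : ℤ × ℤ} : i ∈ box M (n + 1) ↔ par i ∈ box M n := by
  rw [mem_box, mem_box, par]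
  have e : (M * 2 ^ (n + 1) : ℤ) = 2 * (M * 2 ^ n) := by ring
  rw [e]
  generalize (M * 2 ^ n : ℤ) = A
  constructor
  · rintro ⟨⟨h1, h2⟩, h3, h4⟩
    refine ⟨⟨?_, ?_⟩, ?_, ?_⟩ <;> simp only <;> omega
  · rintro ⟨⟨h1, h2⟩, h3, h4⟩
    simp only at h1 h2 h3 h4
    refine ⟨⟨?_, ?_⟩, ?_, ?_⟩ <;> omega

end Box

end Vale.Agent.P092.H464
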