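import Vale.Agent.P092.H464.Cells

/-!
P092, TEAM D, block [D-KAK] (KC), helper464: coefficients of an anisotropic Lipschitz function on
the sheared dyadic cells, telescoping decomposition, sizes and relevance.
-/

namespace Vale.Agent.P092.H464

open MeasureTheory

variable {K : Type*} [NormedAddCommGroup K] [InnerProductSpace ℂ K] [CompleteSpace K]
variable {X : Type*}

/-- coordinate across the line `y` -/
noncomputable def uq (s : X → Fin 3 → ℝ) (y : ℝ × ℝ) (x : X) : ℝ := hh s x - y.1 - y.2 * pp s x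

/-- anisotropic Lipschitz functions carried by the strip of `y` (on the chart `Ch s`) -/
structure Adm (s : X → Fin 3 → ℝ) (r C : ℝ) (y : ℝ × ℝ) (F : X → ℂ) : Prop where
  le_one : ∀ x ∈ Ch s, ‖F x‖ ≤ 1
  supp : ∀ x ∈ Ch s, C * r < |uq s y x| → F x = 0
  lip : ∀ x ∈ Ch s, ∀ x' ∈ Ch s,
    ‖F x - F x'‖ ≤ C * (|uq s y x - uq s y x'| / r + |pp s x - pp s x'|)

/-- `W = ∫_{Ch} F dP` -/
structure Fun [MeasurableSpace X] (s : X → Fin 3 → ℝ) (P : Set X → (K →L[ℂ] K)) (F : X → ℂ)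
    (W : K →L[ℂ] K) : Prop where
  comm : ∀ A, MeasurableSet A → W * P A = P A * W
  off : W * P (Ch s)ᶜ = 0
  approx : ∀ A ⊆ Ch s, MeasurableSet A → ∀ (c : ℂ) (ε : ℝ), 0 ≤ ε →
    (∀ x ∈ A, ‖F x - c‖ ≤ ε) → ‖(W - c • 1) * P A‖ ≤ ε

section scalar

variable {s : X → Fin 3 → ℝ} {η y : ℝ × ℝ} {r σ τ C : ℝ} {n : ℕ} {i : ℤ × ℤ} {F : X → ℂ}

theorem abs_sub_of_floor {a b : ℝ} (h : ⌊a⌋ = ⌊b⌋) : |a - b| ≤ 1 :=
  (Int.abs_sub_lt_one_of_floor_eq_floor h).le

theorem abs_sub_scaled {a b ρ : ℝ} (hρ : 0 < ρ) (h : ⌊2 ^ n * (a / ρ)⌋ = ⌊2 ^ n * (b / ρ)⌋) :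
    |a - b| ≤ ρ / 2 ^ n := by
  have h1 := abs_sub_of_floor h
  have e : 2 ^ n * (a / ρ) - 2 ^ n * (b / ρ) = (a - b) * (2 ^ n / ρ) := by field_simp
  rw [e, abs_mul, abs_of_pos (by positivity : (0 : ℝ) < 2 ^ n / ρ)] at h1
  rw [le_div_iff₀ (by positivity)]
  have := mul_le_mul_of_nonneg_left h1 hρ.le
  calc |a - b| * 2 ^ n = ρ * (|a - b| * (2 ^ n / ρ)) := by field_simp
    _ ≤ ρ * 1 := this
    _ = ρ := mul_one _

theorem cell_hq (hr : 0 < r) {x x' : X} (hx : x ∈ cell s η r σ n i) (hx' : x' ∈ cell s η r σ n i) :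
    |hq s η x - hq s η x'| ≤ r / 2 ^ n :=
  abs_sub_scaled hr (congrArg Prod.fst (hx.2.trans hx'.2.symm))

theorem cell_pp (hσ : 0 < σ) {x x' : X} (hx : x ∈ cell s η r σ n i)
    (hx' : x' ∈ cell s η r σ n i) : |pp s x - pp s x'| ≤ σ / 2 ^ n :=
  abs_sub_scaled hσ (congrArg Prod.snd (hx.2.trans hx'.2.symm))

theorem uq_eq (x : X) : uq s y x = hq s η x + (η.1 - y.1) + (η.2 - y.2) * pp s x := by
  rw [uq, hq]; ring

theorem cell_uq (hr : 0 < r) (hτ : 0 < τ) (hy2 : |y.2 - η.2| ≤ 1 / τ) {x x' : X}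
    (hx : x ∈ cell s η r (τ * r) n i) (hx' : x' ∈ cell s η r (τ * r) n i) :
    |uq s y x - uq s y x'| ≤ 2 * r / 2 ^ n := by
  have h1 := cell_hq hr hx hx'
  have h2 := cell_pp (mul_pos hτ hr) hx hx'
  have e : uq s y x - uq s y x'
      = (hq s η x - hq s η x') + (η.2 - y.2) * (pp s x - pp s x') := by
    rw [uq_eq (η := η), uq_eq (η := η)]; ring
  rw [e]
  calc |(hq s η x - hq s η x') + (η.2 - y.2) * (pp s x - pp s x')|
      ≤ |hq s η x - hq s η x'| + |η.2 - y.2| * |pp s x - pp s x'| := by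
        rw [← abs_mul]; exact abs_add_le _ _
    _ ≤ r / 2 ^ n + (1 / τ) * (τ * r / 2 ^ n) := by
        refine add_le_add h1 (mul_le_mul ?_ h2 (abs_nonneg _) (by positivity))
        rwa [abs_sub_comm]
    _ = 2 * r / 2 ^ n := by field_simp; ring

theorem osc (hF : Adm s r C y F) (hC : 0 ≤ C) (hr : 0 < r) (hτ : 0 < τ) (hσ1 : τ * r ≤ 1)
    (hy2 : |y.2 - η.2| ≤ 1 / τ) {x x' : X}
    (hx : x ∈ cell s η r (τ * r) n i) (hx' : x' ∈ cell s η r (τ * r) n i) :
    ‖F x - F x'‖ ≤ 3 * C / 2 ^ n := by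
  refine (hF.lip x hx.1 x' hx'.1).trans ?_
  have h1 := cell_uq hr hτ hy2 hx hx'
  have h2 : |pp s x - pp s x'| ≤ 1 / 2 ^ n :=
    (cell_pp (mul_pos hτ hr) hx hx').trans (div_le_div_of_nonneg_right hσ1 (by positivity))
  have h3 : |uq s y x - uq s y x'| / r ≤ 2 / 2 ^ n := by
    rw [div_le_iff₀ hr]
    calc _ ≤ 2 * r / 2 ^ n := h1
      _ = 2 / 2 ^ n * r := by ring
  calc C * (|uq s y x - uq s y x'| / r + |pp s x - pp s x'|) ≤ C * (2 / 2 ^ n + 1 / 2 ^ n) :=
        mul_le_mul_of_nonneg_left (add_le_add h3 h2) hC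
    _ = 3 * C / 2 ^ n := by ring

open Classical in
/-- value of `F` at a chosen point of the cell -/
noncomputable def cf (s : X → Fin 3 → ℝ) (η : ℝ × ℝ) (r σ : ℝ) (F : X → ℂ) (n : ℕ) (i : ℤ × ℤ) :
    ℂ :=
  if h : (cell s η r σ n i).Nonempty then F h.some else 0

open Classical in
/-- coefficients of the telescoping sum -/
noncomputable def dd (s : X → Fin 3 → ℝ) (η : ℝ × ℝ) (r σ : ℝ) (F : X → ℂ) :
    ℕ → ℤ × ℤ → ℂ
  | 0, i => cf s η r σ F 0 i
  | (n + 1), i => if (cell s η r σ (n + 1) i).Nonempty then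
      cf s η r σ F (n + 1) i - cf s η r σ F n (par i) else 0

theorem cf_eq (h : (cell s η r σ n i).Nonempty) : cf s η r σ F n i = F h.some := by
  rw [cf, dif_pos h]

theorem dd_norm (hF : Adm s r C y F) (hC : 0 ≤ C) (hr : 0 < r) (hτ : 0 < τ) (hσ1 : τ * r ≤ 1)
    (hy2 : |y.2 - η.2| ≤ 1 / τ) (n : ℕ) (i : ℤ × ℤ) :
    ‖dd s η r (τ * r) F n i‖ ≤ (6 * C + 1) / 2 ^ n := by
  cases n with
  | zero =>
    simp only [dd, cf, pow_zero, div_one]
    split_ifs with h
    · exact (hF.le_one _ h.some_mem.1).trans (by linarith)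
    · rw [norm_zero]; linarith
  | succ n =>
    simp only [dd]
    split_ifs with h
    · have hp : (cell s η r (τ * r) n (par i)).Nonempty := h.mono cell_subset_par
      rw [cf_eq h, cf_eq hp]
      refine (osc hF hC hr hτ hσ1 hy2 (cell_subset_par h.some_mem) hp.some_mem).trans ?_
      rw [pow_succ, div_le_div_iff₀ (by positivity) (by positivity)]
      have : (0 : ℝ) < 2 ^ n := by positivity
      nlinarith
    · rw [norm_zero]; positivity

/-- a cell with a nonzero coefficient contains a point of the strip -/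
theorem dd_rel (hF : Adm s r C y F) (hr : 0 < r) (hτ : 0 < τ)
    (hy2 : |y.2 - η.2| ≤ 1 / τ) {n : ℕ} {i : ℤ × ℤ} (h : dd s η r (τ * r) F n i ≠ 0) :
    ∃ x ∈ cell s η r (τ * r) n i, |uq s y x| ≤ (C + 2) * r := by
  have key : ∀ x ∈ Ch s, F x ≠ 0 → |uq s y x| ≤ C * r := fun x hx h' =>
    not_lt.1 fun hlt => h' (hF.supp x hx hlt)
  cases n with
  | zero =>
    simp only [dd, cf] at h
    split_ifs at h with h0
    · exact ⟨_, h0.some_mem, (key _ h0.some_mem.1 h).trans (by nlinarith)⟩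
    · exact absurd rfl h
  | succ n =>
    simp only [dd] at h
    split_ifs at h with h0
    · have hp : (cell s η r (τ * r) n (par i)).Nonempty := h0.mono cell_subset_par
      rw [cf_eq h0, cf_eq hp] at h
      refine ⟨_, h0.some_mem, ?_⟩
      by_cases h1 : F h0.some = 0
      · have h2 : F hp.some ≠ 0 := fun h2 => h (by rw [h1, h2, sub_zero])
        have h3 := key _ hp.some_mem.1 h2
        have h4 := cell_uq hr hτ hy2 (cell_subset_par h0.some_mem) hp.some_mem
        have h5 : 2 * r / 2 ^ n ≤ 2 * r :=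
          div_le_self (by positivity) (one_le_pow₀ (by norm_num))
        calc |uq s y h0.some| = |uq s y hp.some + (uq s y h0.some - uq s y hp.some)| := by
              ring_nf
          _ ≤ |uq s y hp.some| + |uq s y h0.some - uq s y hp.some| := abs_add_le _ _
          _ ≤ C * r + 2 * r := add_le_add h3 (h4.trans h5)
          _ = (C + 2) * r := by ring
      · exact (key _ h0.some_mem.1 h1).trans (by nlinarith)
    · exact absurd rfl h

end scalar

section operator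

variable [MeasurableSpace X] {P : Set X → (K →L[ℂ] K)}
variable {s : X → Fin 3 → ℝ} {η y : ℝ × ℝ} {r σ τ C : ℝ} {F : X → ℂ} {M : ℕ}

omit [MeasurableSpace X] in
theorem cell_union {n : ℕ} {j : ℤ × ℤ} (hj : j ∈ box M n) :
    cell s η r σ n j = ⋃ i ∈ (box M (n + 1)).filter (fun i => par i = j),
      cell s η r σ (n + 1) i := by
  ext x
  simp only [Set.mem_iUnion, Finset.mem_filter, exists_prop]
  constructor
  · intro hx
    refine ⟨idx s η r σ (n + 1) x, ⟨?_, ?_⟩, hx.1, rfl⟩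
    · rw [par_mem_box, ← idx_par, hx.2]; exact hj
    · rw [← idx_par, hx.2]
  · rintro ⟨i, ⟨_, hi⟩, hx⟩
    rw [← hi]; exact cell_subset_par hx

theorem P_cell_union (hP : Pv P) (hs : Measurable s) {n : ℕ} {j : ℤ × ℤ} (hj : j ∈ box M n) :
    P (cell s η r σ n j) = ∑ i ∈ (box M (n + 1)).filter (fun i => par i = j),
      P (cell s η r σ (n + 1) i) := by
  rw [cell_union (M := M) hj]
  exact hP.sum _ _ (fun i _ => meas_cell hs _ _ _ _ _) (fun i _ j _ hij => cell_disjoint hij)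

/-- partial sums -/
noncomputable def GG (P : Set X → (K →L[ℂ] K)) (s : X → Fin 3 → ℝ) (η : ℝ × ℝ) (r σ : ℝ)
    (F : X → ℂ) (M n : ℕ) : K →L[ℂ] K :=
  ∑ i ∈ box M n, cf s η r σ F n i • P (cell s η r σ n i)

theorem GG_succ (hP : Pv P) (hs : Measurable s) (n : ℕ) :
    GG P s η r σ F M (n + 1) = GG P s η r σ F M n
      + ∑ i ∈ box M (n + 1), dd s η r σ F (n + 1) i • P (cell s η r σ (n + 1) i) := by
  have e1 : GG P s η r σ F M n
      = ∑ i ∈ box M (n + 1), cf s η r σ F n (par i) • P (cell s η r σ (n + 1) i) := by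
    rw [GG, ← Finset.sum_fiberwise_of_maps_to (s := box M (n + 1)) (t := box M n) (g := par)
      (fun i hi => par_mem_box.1 hi)]
    refine Finset.sum_congr rfl fun j hj => ?_
    rw [P_cell_union hP hs hj, Finset.smul_sum]
    refine Finset.sum_congr rfl fun i hi => ?_
    rw [(Finset.mem_filter.1 hi).2]
  rw [e1, GG, ← Finset.sum_add_distrib]
  refine Finset.sum_congr rfl fun i _ => ?_
  rw [← add_smul]
  simp only [dd]
  split_ifs with h
  · congr 1; ring
  · rw [Set.not_nonempty_iff_eq_empty] at h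
    rw [h, hP.empty, smul_zero, smul_zero]

theorem GG_eq_sum (hP : Pv P) (hs : Measurable s) (n : ℕ) :
    GG P s η r σ F M n = ∑ m ∈ Finset.range (n + 1), ∑ i ∈ box M m,
      dd s η r σ F m i • P (cell s η r σ m i) := by
  induction n with
  | zero => simp [GG, dd]
  | succ n ih => rw [GG_succ hP hs, ih, ← Finset.sum_range_succ]

/-- orthogonal sums of localised operators -/
theorem sum_local_le (hP : Pv P) {ι : Type*} (S : Finset ι) (A : ι → Set X)
    (hA : ∀ i ∈ S, MeasurableSet (A i))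
    (hd : ∀ i ∈ S, ∀ j ∈ S, i ≠ j → Disjoint (A i) (A j)) (T : ι → K →L[ℂ] K)
    (hT : ∀ i ∈ S, T i * P (A i) = P (A i) * T i) {ε : ℝ} (hε : 0 ≤ ε)
    (hn : ∀ i ∈ S, ‖T i * P (A i)‖ ≤ ε) : ‖∑ i ∈ S, T i * P (A i)‖ ≤ ε := by
  refine ContinuousLinearMap.opNorm_le_bound _ hε fun ξ => ?_
  have e1 : ∀ i ∈ S, (T i * P (A i)) ξ = P (A i) ((T i * P (A i)) (P (A i) ξ)) := by
    intro i hi
    have h1 : T i * P (A i) = P (A i) * (T i * P (A i)) * P (A i) := by
      symm
      calc P (A i) * (T i * P (A i)) * P (A i)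
          = (P (A i) * T i) * (P (A i) * P (A i)) := by simp only [mul_assoc]
        _ = (T i * P (A i)) * P (A i) := by rw [hP.idem (hA i hi), ← hT i hi]
        _ = T i * P (A i) := by rw [mul_assoc, hP.idem (hA i hi)]
    conv_lhs => rw [h1]
    simp
  have h1 : ‖(∑ i ∈ S, T i * P (A i)) ξ‖ ^ 2 ≤ (ε * ‖ξ‖) ^ 2 := by
    rw [sum_apply, Finset.sum_congr rfl e1]
    have h2 := hP.mult' S A hA 1 (fun x t ht htx => by
      rw [Finset.card_le_one]
      intro i hi j hj
      by_contra hij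
      exact Set.disjoint_left.1 (hd i (ht hi) j (ht hj) hij) (htx i hi) (htx j hj))
      (fun i => (T i * P (A i)) (P (A i) ξ))
    refine h2.trans ?_
    rw [Nat.cast_one, one_mul]
    calc ∑ i ∈ S, ‖(T i * P (A i)) (P (A i) ξ)‖ ^ 2
        ≤ ∑ i ∈ S, ε ^ 2 * ‖P (A i) ξ‖ ^ 2 := by
          refine Finset.sum_le_sum fun i hi => ?_
          rw [← mul_pow]
          refine pow_le_pow_left₀ (norm_nonneg _) ?_ 2
          exact ((T i * P (A i)).le_opNorm _).trans
            (mul_le_mul_of_nonneg_right (hn i hi) (norm_nonneg _))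
      _ = ε ^ 2 * ∑ i ∈ S, ‖P (A i) ξ‖ ^ 2 := by rw [Finset.mul_sum]
      _ ≤ ε ^ 2 * ‖ξ‖ ^ 2 := mul_le_mul_of_nonneg_left (hP.bessel S A hA hd ξ) (sq_nonneg _)
      _ = _ := by ring
  exact le_of_sq_le_sq h1 (by positivity)

/-- the indices of the strip lie in the box -/
theorem W_sub_GG (hP : Pv P) (hs : Measurable s) {W : K →L[ℂ] K} (hW : Fun s P F W)
    (hF : Adm s r C y F) (hC : 0 ≤ C) (hr : 0 < r) (hτ : 0 < τ) (hσ1 : τ * r ≤ 1)
    (hy2 : |y.2 - η.2| ≤ 1 / τ) (n : ℕ)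
    (hM : ∀ x ∈ Ch s, |uq s y x| ≤ C * r → idx s η r (τ * r) n x ∈ box M n) :
    ‖W - GG P s η r (τ * r) F M n‖ ≤ 3 * C / 2 ^ n := by
  classical
  set A := cell s η r (τ * r) n with hA
  have hAm : ∀ i, MeasurableSet (A i) := fun i => meas_cell hs _ _ _ _ _
  set U : Set X := ⋃ i ∈ box M n, A i with hU
  have hUm : MeasurableSet U := Finset.measurableSet_biUnion _ fun i _ => hAm i
  have hUC : U ⊆ Ch s := by
    intro x hx
    simp only [hU, Set.mem_iUnion, exists_prop] at hx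
    obtain ⟨i, _, hx⟩ := hx
    exact hx.1
  have hCm := meas_Ch hs
  -- `W = ∑ W P(A i)`
  have hrest : W * P (Ch s \ U) = 0 := by
    have := hW.approx (Ch s \ U) Set.sdiff_subset (hCm.diff hUm) 0 0 le_rfl (by
      intro x hx
      have : F x = 0 := by
        by_contra hne
        have h1 : |uq s y x| ≤ C * r := not_lt.1 fun hlt => hne (hF.supp x hx.1 hlt)
        apply hx.2
        simp only [hU, Set.mem_iUnion, exists_prop]
        exact ⟨_, hM x hx.1 h1, hx.1, rfl⟩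
      rw [this]; simp)
    rw [zero_smul, sub_zero] at this
    exact norm_le_zero_iff.1 this
  have hW1 : W = ∑ i ∈ box M n, W * P (A i) := by
    have e1 : (1 : K →L[ℂ] K) = P (Ch s)ᶜ + P (Ch s \ U) + P U := by
      have h1 : P (Ch s) = P (Ch s ∩ U) + P (Ch s \ U) := hP.split hUm hCm
      rw [Set.inter_eq_self_of_subset_right hUC] at h1
      rw [hP.compl _ hCm, h1]; abel
    calc W = W * 1 := (mul_one W).symm
      _ = W * P (Ch s)ᶜ + W * P (Ch s \ U) + W * P U := by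
          conv_lhs => rw [e1]
          rw [mul_add, mul_add]
      _ = W * P U := by rw [hW.off, hrest, zero_add, zero_add]
      _ = _ := by
          rw [hU, hP.sum _ _ (fun i _ => hAm i) (fun i _ j _ hij => cell_disjoint hij),
            Finset.mul_sum]
  have e2 : W - GG P s η r (τ * r) F M n
      = ∑ i ∈ box M n, (W - cf s η r (τ * r) F n i • 1) * P (A i) := by
    rw [GG]
    conv_lhs => rw [hW1]
    rw [← Finset.sum_sub_distrib]
    refine Finset.sum_congr rfl fun i _ => ?_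
    rw [sub_mul, smul_mul_assoc, one_mul]
  rw [e2]
  refine sum_local_le hP _ A (fun i _ => hAm i) (fun i _ j _ hij => cell_disjoint hij) _ ?_
    (by positivity) ?_
  · intro i _
    rw [sub_mul, mul_sub, hW.comm _ (hAm i), smul_mul_assoc, mul_smul_comm, one_mul, mul_one]
  · intro i _
    by_cases hne : (A i).Nonempty
    · refine hW.approx (A i) (fun x hx => hx.1) (hAm i) _ _ (by positivity) fun x hx => ?_
      rw [cf_eq hne]
      exact osc hF hC hr hτ hσ1 hy2 hx hne.some_mem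
    · rw [Set.not_nonempty_iff_eq_empty] at hne
      rw [hne, hP.empty, mul_zero, norm_zero]; positivity

end operator

end Vale.Agent.P092.H464
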