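import Vale.Agent.P092.H464.Coef
import Vale.Agent.P092.H361.KCore
import Vale.Agent.P092.H175.KbB
import Vale.Agent.P092.H604.Met

/-!
P092, TEAM D, block [D-KAK] (KC), helper464: one label of one scale: count of the relevant cells,
insertion, and the estimate for all `k` with the same label.
-/

namespace Vale.Agent.P092.H464

open MeasureTheory Vale.Agent.P092.H361 Vale.Agent.P092.H175.Kb

variable {K : Type*} [NormedAddCommGroup K] [InnerProductSpace ℂ K] [CompleteSpace K]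
variable {X Y : Type*}

section count

variable {s : X → Fin 3 → ℝ} {η y : ℝ × ℝ} {r τ C : ℝ} {F : X → ℂ}

theorem count_le (hF : Adm s r C y F) (hC : 0 ≤ C) (hr : 0 < r) (hτ : 0 < τ)
    (hy2 : |y.2 - η.2| ≤ 1 / τ) (n : ℕ) (a : ℤ) (T : Finset (ℤ × ℤ))
    (hT : ∀ i ∈ T, dd s η r (τ * r) F n i ≠ 0 ∧ i.2 / 2 ^ n = a) :
    (T.card : ℝ) ≤ (2 * C + 8) * 4 ^ n := by
  set m0 : ℝ := (y.1 - η.1) + (y.2 - η.2) * (a * (τ * r)) with hm0
  set A : ℝ := 2 ^ n * (m0 / r - (C + 3)) with hA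
  set B : ℝ := 2 ^ n * (m0 / r + (C + 3)) with hB
  have hσ : 0 < τ * r := mul_pos hτ hr
  have h2n : (0 : ℝ) < 2 ^ n := by positivity
  have hsub : T ⊆ Finset.Icc ⌊A⌋ ⌊B⌋ ×ˢ Finset.Ico (a * 2 ^ n) ((a + 1) * 2 ^ n) := by
    intro i hi
    obtain ⟨h1, h2⟩ := hT i hi
    obtain ⟨x, hx, hux⟩ := dd_rel hF hr hτ hy2 h1
    have hi1 : ⌊2 ^ n * (hq s η x / r)⌋ = i.1 := congrArg Prod.fst hx.2
    have hi2 : ⌊2 ^ n * (pp s x / (τ * r))⌋ = i.2 := congrArg Prod.snd hx.2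
    have hfl : ⌊pp s x / (τ * r)⌋ = a := by
      rw [floor_pow n, hi2, h2]
    have hpa : |pp s x - a * (τ * r)| ≤ τ * r := by
      have h3 := Int.floor_le (pp s x / (τ * r))
      have h4 := (Int.lt_floor_add_one (pp s x / (τ * r))).le
      rw [hfl, le_div_iff₀ hσ] at h3
      rw [hfl, div_le_iff₀ hσ] at h4
      rw [abs_le]; constructor <;> nlinarith
    have hq1 : |hq s η x - m0| ≤ (C + 3) * r := by
      have e : hq s η x - m0 = uq s y x + (y.2 - η.2) * (pp s x - a * (τ * r)) := by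
        rw [uq_eq (η := η), hm0]; ring
      rw [e]
      calc |uq s y x + (y.2 - η.2) * (pp s x - a * (τ * r))|
          ≤ |uq s y x| + |y.2 - η.2| * |pp s x - a * (τ * r)| := by
            rw [← abs_mul]; exact abs_add_le _ _
        _ ≤ (C + 2) * r + (1 / τ) * (τ * r) :=
            add_le_add hux (mul_le_mul hy2 hpa (abs_nonneg _) (by positivity))
        _ = (C + 3) * r := by field_simp; ring
    have hq2 : |hq s η x / r - m0 / r| ≤ C + 3 := by
      rw [← sub_div, abs_div, abs_of_pos hr, div_le_iff₀ hr]; exact hq1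
    rw [abs_le] at hq2
    refine Finset.mem_product.2 ⟨Finset.mem_Icc.2 ⟨?_, ?_⟩, Finset.mem_Ico.2 ⟨?_, ?_⟩⟩
    · rw [← hi1]; exact Int.floor_le_floor (mul_le_mul_of_nonneg_left (by linarith) h2n.le)
    · rw [← hi1]; exact Int.floor_le_floor (mul_le_mul_of_nonneg_left (by linarith) h2n.le)
    · rw [← h2]; exact Int.ediv_mul_le _ (by positivity)
    · rw [← h2]; exact Int.lt_ediv_add_one_mul_self _ (by positivity)
  have hcard := Finset.card_le_card hsub
  rw [Finset.card_product, Int.card_Icc, Int.card_Ico] at hcard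
  have e1 : ((a + 1) * 2 ^ n - a * 2 ^ n).toNat = 2 ^ n := by
    have : (a + 1) * 2 ^ n - a * 2 ^ n = ((2 ^ n : ℕ) : ℤ) := by push_cast; ring
    rw [this, Int.toNat_natCast]
  rw [e1] at hcard
  have hAB : A ≤ B := by
    rw [hA, hB]; exact mul_le_mul_of_nonneg_left (by linarith) h2n.le
  have h0 : (0 : ℤ) ≤ ⌊B⌋ + 1 - ⌊A⌋ := by
    have := Int.floor_le_floor hAB; omega
  have e2 : ((⌊B⌋ + 1 - ⌊A⌋).toNat : ℝ) ≤ (2 * C + 8) * 2 ^ n := by
    have h5 : ((⌊B⌋ + 1 - ⌊A⌋).toNat : ℝ) = ((⌊B⌋ + 1 - ⌊A⌋ : ℤ) : ℝ) := by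
      exact_mod_cast Int.toNat_of_nonneg h0
    rw [h5]
    push_cast
    have h6 := Int.floor_le B
    have h7 := Int.lt_floor_add_one A
    have h8 : B - A = 2 ^ n * (2 * (C + 3)) := by rw [hA, hB]; ring
    have h9 : (1 : ℝ) ≤ 2 ^ n := one_le_pow₀ (by norm_num)
    nlinarith
  calc (T.card : ℝ) ≤ ((⌊B⌋ + 1 - ⌊A⌋).toNat * 2 ^ n : ℕ) := by exact_mod_cast hcard
    _ = ((⌊B⌋ + 1 - ⌊A⌋).toNat : ℝ) * 2 ^ n := by push_cast; ring
    _ ≤ ((2 * C + 8) * 2 ^ n) * 2 ^ n := mul_le_mul_of_nonneg_right e2 h2n.le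
    _ = (2 * C + 8) * 4 ^ n := by
        rw [mul_assoc, ← mul_pow]; norm_num

end count

section far

variable [MeasurableSpace Y]

theorem far_of_notMem {t : Y → Fin 3 → ℝ} {j : ℕ} {y : ℝ × ℝ} {ν : Y}
    (h : ν ∉ near t j (ng j y)) : 7 * |t ν 0| ≤ 2 ^ j * DD y (t ν) := by
  by_cases h0 : t ν 0 = 0
  · rw [h0, abs_zero, mul_zero]; exact mul_nonneg (by positivity) (DD_nonneg _ _)
  · have e1 : |al y (t ν)| = |t ν 0| * |et1 (t ν) - y.1| := by
      rw [← abs_mul, ← abs_neg (al y (t ν))]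
      congr 1
      rw [al, et1]; field_simp; ring
    have e2 : |be y (t ν)| = |t ν 0| * |et2 (t ν) - y.2| := by
      rw [← abs_mul, ← abs_neg (be y (t ν))]
      congr 1
      rw [be, et2]; field_simp; ring
    rcases near_ge h0 h with h1 | h1
    · calc 7 * |t ν 0| ≤ (2 ^ j * |et1 (t ν) - y.1|) * |t ν 0| :=
            mul_le_mul_of_nonneg_right h1 (abs_nonneg _)
        _ = 2 ^ j * |al y (t ν)| := by rw [e1]; ring
        _ ≤ 2 ^ j * DD y (t ν) := mul_le_mul_of_nonneg_left (le_max_left _ _) (by positivity)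
    · calc 7 * |t ν 0| ≤ (2 ^ j * |et2 (t ν) - y.2|) * |t ν 0| :=
            mul_le_mul_of_nonneg_right h1 (abs_nonneg _)
        _ = 2 ^ j * |be y (t ν)| := by rw [e2]; ring
        _ ≤ 2 ^ j * DD y (t ν) := mul_le_mul_of_nonneg_left (le_max_right _ _) (by positivity)

omit [MeasurableSpace Y] in
theorem piece_notMem_near {t : Y → Fin 3 → ℝ} {j : ℕ} {c : ℤ × ℤ} {ν : Y} (h : ν ∈ piece t j c) :
    ν ∉ near t j c := by
  cases j with
  | zero => exact h
  | succ j => exact h.2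

end far

section sets

/-- slabs of points -/
def slab (s : X → Fin 3 → ℝ) (σ CZ : ℝ) (a : ℤ) : Set X :=
  {z | s z 1 ≠ 0 ∧ |pp s z / σ - a| ≤ CZ}

/-- discs of lines in the chart -/
def disc (t : Y → Fin 3 → ℝ) (y : ℝ × ℝ) (δ : ℝ) : Set Y :=
  {ν | t ν 0 ≠ 0 ∧ |et1 (t ν) - y.1| ≤ δ ∧ |et2 (t ν) - y.2| ≤ δ}

theorem meas_slab [MeasurableSpace X] {s : X → Fin 3 → ℝ} (hs : Measurable s) (σ CZ : ℝ) (a : ℤ) :
    MeasurableSet (slab s σ CZ a) := by
  have h1 : MeasurableSet {x | s x 1 ≠ 0} :=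
    (measurableSet_eq_fun ((measurable_pi_apply 1).comp hs) measurable_const).compl
  have h2 : MeasurableSet {x | |pp s x / σ - a| ≤ CZ} :=
    measurableSet_le (((meas_pp hs).div measurable_const).sub measurable_const).abs
      measurable_const
  exact h1.inter h2

theorem meas_et1 [MeasurableSpace Y] {t : Y → Fin 3 → ℝ} (ht : Measurable t) :
    Measurable fun ν => et1 (t ν) :=
  ((measurable_pi_apply 1).comp ht).neg.div ((measurable_pi_apply 0).comp ht)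

theorem meas_et2 [MeasurableSpace Y] {t : Y → Fin 3 → ℝ} (ht : Measurable t) :
    Measurable fun ν => et2 (t ν) :=
  ((measurable_pi_apply 2).comp ht).neg.div ((measurable_pi_apply 0).comp ht)

theorem meas_disc [MeasurableSpace Y] {t : Y → Fin 3 → ℝ} (ht : Measurable t) (y : ℝ × ℝ)
    (δ : ℝ) : MeasurableSet (disc t y δ) := by
  have h1 : MeasurableSet {x | t x 0 ≠ 0} :=
    (measurableSet_eq_fun ((measurable_pi_apply 0).comp ht) measurable_const).compl
  have h2 : MeasurableSet {x | |et1 (t x) - y.1| ≤ δ} :=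
    measurableSet_le ((meas_et1 ht).sub measurable_const).abs measurable_const
  have h3 : MeasurableSet {x | |et2 (t x) - y.2| ≤ δ} :=
    measurableSet_le ((meas_et2 ht).sub measurable_const).abs measurable_const
  exact h1.inter (h2.inter h3)

end sets

/-- incidence in homogeneous coordinates -/
def Inc (s : X → Fin 3 → ℝ) (t : Y → Fin 3 → ℝ) (x : X) (ν : Y) : Prop :=
  t ν 0 * s x 0 + t ν 1 * s x 1 + t ν 2 * s x 2 = 0

section insertion

variable [MeasurableSpace X] [MeasurableSpace Y]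
variable {s : X → Fin 3 → ℝ} {t : Y → Fin 3 → ℝ} {Pb Pc : Set X → (K →L[ℂ] K)}
variable {Ll Lm : Set Y → (K →L[ℂ] K)} {η y : ℝ × ℝ} {r τ C : ℝ} {F : X → ℂ}

theorem ins_cell (hs : Measurable s) (ht : Measurable t) (hs0 : ∀ x, s x ≠ 0)
    (ht0 : ∀ ν, t ν ≠ 0) (hc : Pv Pc) (hl : Pv Ll)
    (hbl : CI (Inc s t) Pb Ll) (hcl : CI (Inc s t) Pc Ll) (hcm : CI (Inc s t) Pc Lm)
    (hF : Adm s r C y F) (hC : 0 ≤ C) (hr : 0 < r) (hτ : 0 < τ)
    (hsmall : 8 * (C + 3) * (τ * r) ≤ 1)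
    (hy2 : |y.2 - η.2| ≤ 1 / τ) {N : Set Y} (hN : MeasurableSet N)
    (hfar : ∀ ν ∈ N, 7 * |t ν 0| ≤ τ * DD y (t ν)) {n : ℕ} {i : ℤ × ℤ}
    (hi : dd s η r (τ * r) F n i ≠ 0) :
    Pc (slab s (τ * r) (8 * (C + 3) + 1) (i.2 / 2 ^ n))ᶜ * Lm (disc t y (C * r))
      * Pb (cell s η r (τ * r) n i) * Ll N = 0 := by
  obtain ⟨x0, hx0, hux0⟩ := dd_rel hF hr hτ hy2 hi
  have hσ : 0 < τ * r := mul_pos hτ hr
  set a : ℤ := i.2 / 2 ^ n with ha
  have hi2 : ⌊2 ^ n * (pp s x0 / (τ * r))⌋ = i.2 := congrArg Prod.snd hx0.2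
  have hfl : ⌊pp s x0 / (τ * r)⌋ = a := by rw [floor_pow n, hi2]
  have hpa : |pp s x0 / (τ * r) - a| ≤ 1 := by
    rw [← hfl]
    have h3 := Int.floor_le (pp s x0 / (τ * r))
    have h4 := (Int.lt_floor_add_one (pp s x0 / (τ * r))).le
    rw [abs_le]; constructor <;> linarith
  set N' : Set Y := {ν | ν ∈ N ∧ |t ν 0 * hh s x0 + t ν 1 + t ν 2 * pp s x0|
    ≤ 2 * (τ * r) * DD y (t ν)} with hN'
  set Zm : Set X := {z | z ∈ (slab s (τ * r) (8 * (C + 3) + 1) a)ᶜ ∧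
    |s z 0 - y.1 * s z 1 - y.2 * s z 2| ≤ C * r * (|s z 1| + |s z 2|)} with hZm
  have mt : ∀ k : Fin 3, Measurable fun ν => t ν k := fun k => (measurable_pi_apply k).comp ht
  have ms : ∀ k : Fin 3, Measurable fun x => s x k := fun k => (measurable_pi_apply k).comp hs
  have mDD : Measurable fun ν => DD y (t ν) :=
    (((mt 0).mul_const _).add (mt 1)).abs.max (((mt 0).mul_const _).add (mt 2)).abs
  have hN'm : MeasurableSet N' := by
    have e1 : Measurable fun ν => |t ν 0 * hh s x0 + t ν 1 + t ν 2 * pp s x0| :=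
      ((((mt 0).mul_const _).add (mt 1)).add ((mt 2).mul_const _)).abs
    exact hN.inter (measurableSet_le e1 (mDD.const_mul _))
  have hZcm : MeasurableSet (slab s (τ * r) (8 * (C + 3) + 1) a)ᶜ := (meas_slab hs _ _ _).compl
  have hZmm : MeasurableSet Zm := by
    have e1 : Measurable fun z => |s z 0 - y.1 * s z 1 - y.2 * s z 2| :=
      (((ms 0).sub ((ms 1).const_mul _)).sub ((ms 2).const_mul _)).abs
    have e2 : Measurable fun z => C * r * (|s z 1| + |s z 2|) :=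
      ((ms 1).abs.add (ms 2).abs).const_mul _
    exact hZcm.inter (measurableSet_le e1 e2)
  refine ins_op hc hl hbl hcl hcm (meas_cell hs _ _ _ _ _) hZcm hZmm hN hN'm (meas_disc ht _ _)
    (fun ν h => h.1) (fun z h => h.1) ?_ ?_ ?_
  · -- lines of `N` incident to the cell lie in `N'`
    rintro x hx ν ⟨hν, hν'⟩ hI
    apply hν'
    refine ⟨hν, ?_⟩
    have hx1 : s x 1 ≠ 0 := hx.1.1
    refine near_corner hr hτ (hfar ν hν) hy2 (h' := hh s x) (p' := pp s x) ?_ ?_ ?_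
    · have : t ν 0 * hh s x + t ν 1 + t ν 2 * pp s x
          = (t ν 0 * s x 0 + t ν 1 * s x 1 + t ν 2 * s x 2) / s x 1 := by
        rw [hh, pp]; field_simp
      rw [this, show t ν 0 * s x 0 + t ν 1 * s x 1 + t ν 2 * s x 2 = 0 from hI, zero_div]
    · have := cell_hq hr hx0 hx
      refine (show |hq s η x0 - hq s η x| ≤ r / 2 ^ n from this).trans ?_
      exact div_le_self hr.le (one_le_pow₀ (by norm_num))
    · refine (cell_pp hσ hx0 hx).trans ?_
      exact div_le_self hσ.le (one_le_pow₀ (by norm_num))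
  · -- points on the lines of the disc lie in the strip
    rintro z ⟨hz, hz'⟩ μ ⟨hμ0, hμ1, hμ2⟩ hI
    apply hz'
    refine ⟨hz, ?_⟩
    refine in_strip (m := (et1 (t μ), et2 (t μ))) hμ1 hμ2 ?_
    have hI' : t μ 0 * s z 0 + t μ 1 * s z 1 + t μ 2 * s z 2 = 0 := hI
    simp only [et1, et2]
    field_simp
    linear_combination hI'
  · -- crossing
    rintro z ⟨hz, hz'⟩ ν ⟨hν, hν'⟩ hI
    apply hz
    have h1 : (2 + (C + 2) / 7) * (τ * r) ≤ 1 / 4 := by
      have : (2 + (C + 2) / 7) ≤ (C + 3) := by linarith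
      nlinarith
    have h2 : C / 7 * (τ * r) ≤ 1 / 8 := by nlinarith
    obtain ⟨hz1, hz2⟩ := cross' (ht0 ν) (hs0 z) hr hτ (by linarith : (0 : ℝ) ≤ C + 2) hC
      (hx0.1.2.trans (by norm_num)) (hfar ν hν) hν' hux0 hz' hI h1 h2
    refine ⟨hz1, ?_⟩
    have h3 : |pp s z - pp s x0| ≤ 8 * (C + 3) * (τ * r) := by
      refine (show |s z 2 / s z 1 - pp s x0| ≤ _ from hz2).trans ?_
      refine mul_le_mul_of_nonneg_right ?_ hσ.le
      linarith
    have h4 : |pp s z / (τ * r) - pp s x0 / (τ * r)| ≤ 8 * (C + 3) := by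
      rw [← sub_div, abs_div, abs_of_pos hσ, div_le_iff₀ hσ]; exact h3
    calc |pp s z / (τ * r) - a|
        = |(pp s z / (τ * r) - pp s x0 / (τ * r)) + (pp s x0 / (τ * r) - a)| := by ring_nf
      _ ≤ _ := abs_add_le _ _
      _ ≤ 8 * (C + 3) + 1 := add_le_add h4 hpa

end insertion

end Vale.Agent.P092.H464
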